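import Vale.Agent.P271.Main.Defs
import Vale.Agent.P271.H43.One
import Vale.Agent.P271.H507.TL

/-!
# P271 / Main / FreeDefs : the interface of the top of the chain-free proof (helper500)

`C` is a graded cone, `z` a point of the cone different from the vertex, `m1 ≥ 1` the Veronese
index, `T` the level: all filtrations live on `VA C m1 T = C.A (m1 * T)`.

`FreeBlocks C z m1 ell` collects the outputs of the blocks of helper43's proof (note 10309);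
`Main/Free.lean` deduces `C.Gen M z` for all `M ≥ n + 1`.
-/

namespace Vale.Agent.P271.Main

open Module Filt Filt.Wt Chain Sch H43

/-- The gain of (7): `(1 - (1 - x₀)^(1 + 1/n)) / x₀ > 1`. -/
noncomputable def gam (n : ℕ) (x₀ : ℝ) : ℝ := (1 - (1 - x₀) ^ (1 + 1 / (n : ℝ))) / x₀

theorem one_lt_gam {n : ℕ} (hn : 1 ≤ n) {x₀ : ℝ} (h0 : 0 < x₀) (h1 : x₀ < 1) : 1 < gam n x₀ := by
  unfold gam
  rw [one_lt_div h0]
  have hn0 : (0 : ℝ) < 1 / (n : ℝ) := by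
    have : (0 : ℝ) < n := by exact_mod_cast hn
    positivity
  have h2 : (1 - x₀) ^ (1 + 1 / (n : ℝ)) < (1 - x₀) ^ (1 : ℝ) :=
    Real.rpow_lt_rpow_of_exponent_gt (by linarith) (by linarith) (by linarith)
  rw [Real.rpow_one] at h2
  linarith

/-- The number of smallest jumps which get the additional mass. -/
noncomputable def msz (x₀ : ℝ) (N : ℕ) : ℕ := ⌈x₀ * N⌉₊

theorem msz_pos {x₀ : ℝ} (h0 : 0 < x₀) {N : ℕ} (hN : 1 ≤ N) : 1 ≤ msz x₀ N := by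
  unfold msz
  rw [Nat.one_le_iff_ne_zero, Ne, Nat.ceil_eq_zero, not_le]
  have : (0 : ℝ) < N := by exact_mod_cast hN
  positivity

theorem msz_le {x₀ : ℝ} (h1 : x₀ ≤ 1) (N : ℕ) : msz x₀ N ≤ N := by
  unfold msz
  rw [Nat.ceil_le]
  exact mul_le_of_le_one_left (Nat.cast_nonneg N) h1

/-- The uniform coefficients `1 / (m N)` for a space of dimension `N`, `m` the degree. -/
noncomputable def kap0 (m : ℝ) (x₀ : ℝ) (N : ℕ) : Fin N → ℝ :=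
  H507.kap N (msz x₀ N) (1 / (m * N)) 0

/-- The concentrated coefficients `1 / (m M)` on the `M` smallest jumps. -/
noncomputable def kap1 (m : ℝ) (x₀ : ℝ) (N : ℕ) : Fin N → ℝ :=
  H507.kap N (msz x₀ N) 0 (1 / (m * msz x₀ N))

/-- The two-level coefficients of total mass `1 / m`. -/
noncomputable def kapT (m : ℝ) (x₀ θ : ℝ) (N : ℕ) : Fin N → ℝ :=
  H507.kap N (msz x₀ N) ((1 - θ) / (m * N)) (θ / (m * msz x₀ N))

variable {n : ℕ} (C : GCone n) (z : C.Pt) (m1 : ℕ)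

/-- The outputs of the blocks of the chain-free proof, for a fixed cone, point and Veronese
index; `ell = L^n`. -/
structure FreeBlocks (ell : ℕ) [∀ k, FiniteDimensional ℂ (C.A k)] where
  /-- the slope functional (threshold at `z`) on the filtrations of `A_{m1 T}` -/
  a : ∀ T : ℕ, Wt ℂ (VA C m1 T) → ℝ
  /-- `P` is the centre of a (Zorn) valuation that computes `a F` and induces `F` -/
  IsCen : ∀ T : ℕ, Wt ℂ (VA C m1 T) → Ideal C.R → Prop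
  /-- the total order of vanishing at `z` on `A_{m1 T}` -/
  os : ℕ → ℝ
  m1_pos : 1 ≤ m1
  ell_pos : 1 ≤ ell
  /-- base point free at `z` and nontrivial -/
  hz_ne : ∃ T₀ : ℕ, ∀ T ≥ T₀, Hz C z m1 T ≠ ⊥
  /-- [604, 570, 828, 485, 577] -/
  slope : ∃ T₀ : ℕ, ∀ T ≥ T₀, ∃ c0 : ℝ, Slope (Hz C z m1 T) (a T) c0
  /-- [242] uniform bound of the weights -/
  low : ∃ c : ℝ, 0 < c ∧ ∃ T₀ : ℕ, ∀ T ≥ T₀, ∀ G : Wt ℂ (VA C m1 T), Dom (Hz C z m1 T) G →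
    ∀ x, x ≠ 0 → G.w x ≤ c * (m1 * T) * a T G
  /-- [27, 242, 112] the concentrated functional is small -/
  conc : ∀ R : ℝ, 0 < R → ∃ x₀ : ℝ, 0 < x₀ ∧ x₀ < 1 ∧ ∃ T₀ : ℕ, ∀ T ≥ T₀,
    ∀ G : Wt ℂ (VA C m1 T), Dom (Hz C z m1 T) G →
      R * S (kap1 (m1 * T) x₀ (finrank ℂ (VA C m1 T))) G ≤ a T G
  /-- [972] the filtration by the order of vanishing at `z` -/
  uni : ∃ T₀ : ℕ, ∀ T ≥ T₀, ∃ E : Wt ℂ (VA C m1 T), Dom (Hz C z m1 T) E ∧ a T E ≤ n ∧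
    E.T = os T
  /-- [972] -/
  hos : ∀ ε : ℝ, 0 < ε → ∃ T₀ : ℕ, ∀ T ≥ T₀,
    ((n : ℝ) / (n + 1) * (ell : ℝ) ^ ((1 : ℝ) / n) - ε) *
      (m1 * T * finrank ℂ (VA C m1 T)) ≤ os T
  /-- [35] the equality case -/
  eq : ell = 1 → (∀ δ : ℝ, 0 < δ → ∃ T₀ : ℕ, ∀ T ≥ T₀,
    os T ≤ ((n : ℝ) / (n + 1) + δ) * (m1 * T * finrank ℂ (VA C m1 T))) → C.Gen (n + 1) z
  /-- [972, 84, 604, 43] a minimiser is induced by a valuation -/
  cen : ∃ T₀ : ℕ, ∀ T ≥ T₀, ∀ κ R F, Minim (Hz C z m1 T) (a T) κ R F → ∃ P, IsCen T F P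
  /-- [END: 837, 244, 741] -/
  fin : ∃ T₀ : ℕ, ∀ T ≥ T₀, ∀ κ R F, Minim (Hz C z m1 T) (a T) κ R F → IsCen T F (pz z) →
    ∀ M : ℕ, R * (∑ i, κ i) * (m1 * T) < M → C.Gen M z
  /-- [K3OUT: 783, 207, 433, 84; TL: 507; 109, 987, 177] -/
  k3w : ∀ ε : ℝ, 0 < ε → ε < 1 → ∀ x₀ : ℝ, 0 < x₀ → x₀ < 1 → ∀ θ₁ : ℝ, θ₁ < 1 → ∃ T₀ : ℕ,
    ∀ T ≥ T₀, ∀ θ : ℝ, 0 ≤ θ → θ ≤ θ₁ → ∀ R F P,
      Minim (Hz C z m1 T) (a T) (kapT (m1 * T) x₀ θ (finrank ℂ (VA C m1 T))) R F →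
      IsCen T F P → P ≠ pz z → R * (1 + θ * (gam n x₀ - 1)) * (1 - ε) ≤ n + 1

end Vale.Agent.P271.Main
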