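import Vale.Agent.P271.H43.Level
import Vale.Agent.P271.Main.FreeDefs
import Vale.Agent.P271.Inst.Sys
import Vale.Agent.P271.LOC.A4

/-!
# P271 / Main / CSys : the exponent sets of a cone, and the fields of `FreeBlocks` in terms of them
(helper684)

`CSys C`: the exponent sets at all points of the cone (570, 604). All blocks below the structure
`FreeBlocks` (Main/FreeDefs.lean) are stated for a `S : CSys C`, a point `z : NVPt C` and a Veronese
index `m1`: `S.a z m1 T` is the slope functional, `S.IsCen z m1 T F P` says that `P` is the centre of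
a saturated weight function (a valuation) with restriction `F`.
-/

set_option linter.all false

namespace Vale.Agent.P271.Main

open Module Filt Filt.Wt Chain Sch Inst Zorn Exp H43 H84

variable {n : ℕ}

/-- The points different from the vertex. -/
abbrev NVPt (C : GCone n) : Type := {φ : C.Pt // GCone.NV φ}

/-- The exponent sets at all points of the cone. -/
structure CSys (C : GCone n) where
  E : ExpSys C.R (HmOf (HM C)) (NVPt C)
  D : NVPt C → Dat (HM C)
  ev_eq : ∀ φ, E.ev φ = φ.1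
  P_eq : ∀ φ, E.P φ = extP (HM C) (D φ).P
  sum : ∀ φ (f g s : HM C), SumRel f g s → (D φ).Sum f g s
  P_ES : ∀ φ, (D φ).P = ES (n + 1) (fun f : HM C => (f : C.R)) φ.1

/-- **The exponent sets of a cone** (helper570's `sysOf`, `gdat`; helper828's (A4)). -/
noncomputable def csys (C : GCone n) : CSys C where
  E := sysOf C LOC.a4Stat
  D := gdat LOC.a4Stat
  ev_eq := fun _ => rfl
  P_eq := fun _ => rfl
  sum := fun φ f g s h => gdat_Sum LOC.a4Stat φ f g s h
  P_ES := fun _ => rfl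

namespace CSys

variable {C : GCone n} (S : CSys C) (z : NVPt C) (m1 : ℕ)

/-- The slope functional at `z` on the filtrations of the level `T`. -/
noncomputable def a (T : ℕ) (F : Wt ℂ (VA C m1 T)) : ℝ := S.E.a z (VA C m1 T) F

theorem hval {v : HM C → ℝ} {β : ℝ} (h : (S.D z).Sat v β) : HVal C.A (vR v) :=
  hval_of_sat (S.sum z) h

/-- `P` is the centre of a saturated weight function with restriction `F`. -/
def IsCen (T : ℕ) (F : Wt ℂ (VA C m1 T)) (P : Ideal C.R) : Prop :=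
  ∃ v : HM C → ℝ, (S.D z).Sat v (S.a z m1 T F) ∧ (∀ f : HM C, z.1 (f : C.R) ≠ 0 → v f = 0) ∧
    (∀ (y : VA C m1 T) (hy : y ≠ 0), F.w y = v ⟨y, mem_HM_of y hy⟩) ∧
    ∃ h : HVal C.A (vR v), P = h.rval.P

/-- **END** (helper244): if all homogeneous elements which vanish at `z` have positive value, and
the threshold `β` of `v` is approximated by exponent vectors of degree `≤ r`, then `K + M L` is
generated at `z` for `M > r`. -/
def EndStat : Prop :=
  ∀ (v : HM C → ℝ) (β : ℝ), (S.D z).Sat v β → (∀ f : HM C, z.1 (f : C.R) = 0 → 0 < v f) →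
    ∀ r : ℝ, 0 ≤ r → (∀ ε : ℝ, 0 < ε → ∃ k ∈ (S.D z).P, (∀ f, 0 ≤ k f) ∧ β - ε ≤ pair k v ∧
      pair k (fun f => (HM.deg f : ℝ)) ≤ r + ε) → ∀ M : ℕ, r < M → C.Gen M z.1

theorem Hz_eq (T : ℕ) : S.E.Hz z (VA C m1 T) = Hz C z.1 m1 T := by
  ext y
  rw [S.E.mem_Hz, S.ev_eq, Hz, LinearMap.mem_ker]
  rfl

variable {z m1}

theorem IsCen.hprime {T : ℕ} {F : Wt ℂ (VA C m1 T)} {P : Ideal C.R} (h : S.IsCen z m1 T F P) :
    HPrime z.1 P := by
  obtain ⟨v, hv, h0, hF, hval, rfl⟩ := h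
  have h1 : hval.rval.P.IsHomogeneous C.A := hval.P_homogeneous
  refine ⟨hval.rval.P_isPrime, h1, ?_⟩
  unfold pz
  have h2 : hval.rval.P ≤ RingHom.ker z.1 := P_le_ker hval h0
  have h3 := Ideal.homogeneousCore_mono C.A h2
  have h4 : (hval.rval.P.homogeneousCore C.A).toIdeal = hval.rval.P := h1.toIdeal_homogeneousCore_eq_self
  rw [← h4]
  exact h3

variable [∀ k, FiniteDimensional ℂ (C.A k)]

variable (z m1) in
/-- Field `slope`. -/
theorem slope (T : ℕ) : ∃ c0 : ℝ, Slope (Hz C z.1 m1 T) (S.a z m1 T) c0 := by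
  obtain ⟨c0, h⟩ := S.E.exists_slope43 (V := VA C m1 T) HmOf_of_mem z
  rw [S.Hz_eq] at h
  exact ⟨c0, h⟩

theorem minim_E {T : ℕ} {κ : Fin (finrank ℂ (VA C m1 T)) → ℝ} {R : ℝ} {F : Wt ℂ (VA C m1 T)}
    (h : Minim (Hz C z.1 m1 T) (S.a z m1 T) κ R F) :
    Minim (S.E.Hz z (VA C m1 T)) (S.E.a z (VA C m1 T)) κ R F := by
  rw [S.Hz_eq]
  exact h

/-- Field `cen`. -/
theorem cen {T : ℕ} {κ : Fin (finrank ℂ (VA C m1 T)) → ℝ} {R : ℝ} {F : Wt ℂ (VA C m1 T)}
    (h : Minim (Hz C z.1 m1 T) (S.a z m1 T) κ R F) : ∃ P, S.IsCen z m1 T F P := by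
  obtain ⟨v, h1, h2, h3⟩ := exists_sat_of_minim S.E z (S.P_eq z) (S.sum z) (S.minim_E h)
  refine ⟨(S.hval z h1).rval.P, v, ?_, ?_, h3, S.hval z h1, rfl⟩
  · rw [show S.a z m1 T F = R from h.a_eq]
    exact h1
  · intro f hf
    exact h2 f (by rw [S.ev_eq]; exact hf)

end CSys

end Vale.Agent.P271.Main
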