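import Mathlib

/-!
# P271, top numerical theorem of the chain-free proof (helper43's proof, note 10309)
(helper500)

`free_num` : from the alternative at all large levels and the equality case follows `Gen M` for
all `M ≥ n + 1`.
-/

set_option linter.all false

namespace Vale.Agent.P271.Main

/-- The alternative at one level `m`: `os = ∑ ord_z`, `mN = m * dim`, `r` the critical number,
`g₀` the gain at the concentrated weights. -/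
def Alt (n : ℕ) (Gen : ℕ → Prop) (g₀ r ε os mN : ℝ) : Prop :=
  ∃ θ : ℝ, 0 ≤ θ ∧ θ < 1 ∧ (1 - θ) * (r * os) ≤ n * mN ∧
    ((∀ M : ℕ, r < M → Gen M) ∨ r * (1 + θ * g₀) * (1 - ε) ≤ n + 1)

theorem free_two {n ell : ℕ} (hn : 1 ≤ n) (hell : 1 ≤ ell) (Gen : ℕ → Prop) (os mN : ℕ → ℝ)
    {g₀ : ℝ} (hg : 0 < g₀) (hmN : ∃ T₀ : ℕ, ∀ T ≥ T₀, 0 < mN T)
    (hos : ∀ ε : ℝ, 0 < ε → ∃ T₀ : ℕ, ∀ T ≥ T₀,
      ((n : ℝ) / (n + 1) * (ell : ℝ) ^ ((1 : ℝ) / n) - ε) * mN T ≤ os T)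
    (H : ∀ r : ℝ, 1 ≤ r → r ≤ n + 2 → ∀ ε : ℝ, 0 < ε → ∃ T₀ : ℕ, ∀ T ≥ T₀,
      n * mN T < r * os T → Alt n Gen g₀ r ε (os T) (mN T)) (M : ℕ) (h : n + 1 < M) : Gen M := by
  have hn0 : (0 : ℝ) ≤ n := Nat.cast_nonneg n
  have hn1 : (1 : ℝ) ≤ n := by exact_mod_cast hn
  have hnn : (0 : ℝ) < (n : ℝ) + 1 := by positivity
  obtain ⟨T₁, hT₁⟩ := hmN
  have hL1 : (1 : ℝ) ≤ (ell : ℝ) ^ ((1 : ℝ) / n) :=
    Real.one_le_rpow (by exact_mod_cast hell) (by positivity)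
  obtain ⟨T₂, hT₂⟩ := hos (n / (4 * (n + 2) ^ 2)) (by positivity)
  obtain ⟨T₃, hT₃⟩ := H (n + 3 / 2) (by linarith) (by linarith) (1 / (4 * (n + 2)))
    (by positivity)
  set T := max T₁ (max T₂ T₃) with hT
  have hm := hT₁ T (le_max_left _ _)
  have h2 := hT₂ T ((le_max_left _ _).trans (le_max_right _ _))
  have h5 : ((n : ℝ) + 2) ≤ M := by exact_mod_cast h
  have hlt : n * mN T < (n + 3 / 2) * os T := by
    have h3 : ((n : ℝ) / (n + 1) - n / (4 * (n + 2) ^ 2)) * mN T ≤ os T := by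
      refine le_trans (mul_le_mul_of_nonneg_right ?_ hm.le) h2
      have : (n : ℝ) / (n + 1) * 1 ≤ (n : ℝ) / (n + 1) * (ell : ℝ) ^ ((1 : ℝ) / n) :=
        mul_le_mul_of_nonneg_left hL1 (by positivity)
      linarith
    have h4 : (n : ℝ) < (n + 3 / 2) * ((n : ℝ) / (n + 1) - n / (4 * (n + 2) ^ 2)) := by
      have e1 : (n + 3 / 2) * ((n : ℝ) / (n + 1) - n / (4 * (n + 2) ^ 2)) - n =
          n * ((1 / 2) / (n + 1) - (n + 3 / 2) / (4 * (n + 2) ^ 2)) := by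
        field_simp
        ring
      have e2 : 0 < (1 / 2 : ℝ) / (n + 1) - (n + 3 / 2) / (4 * (n + 2) ^ 2) := by
        rw [sub_pos, div_lt_div_iff₀ (by positivity) (by positivity)]
        nlinarith
      nlinarith [mul_pos (lt_of_lt_of_le one_pos hn1) e2]
    calc n * mN T < (n + 3 / 2) * ((n : ℝ) / (n + 1) - n / (4 * (n + 2) ^ 2)) * mN T :=
          mul_lt_mul_of_pos_right h4 hm
      _ = (n + 3 / 2) * (((n : ℝ) / (n + 1) - n / (4 * (n + 2) ^ 2)) * mN T) := by ring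
      _ ≤ _ := mul_le_mul_of_nonneg_left h3 (by positivity)
  obtain ⟨θ, hθ0, hθ1, -, hgen | hbad⟩ :=
    hT₃ T ((le_max_right _ _).trans (le_max_right _ _)) hlt
  · exact hgen M (by linarith)
  · exfalso
    have h6 : 1 ≤ 1 + θ * g₀ := by linarith [mul_nonneg hθ0 hg.le]
    have h7 : (0 : ℝ) < 1 - 1 / (4 * (n + 2)) := by
      rw [sub_pos, div_lt_one (by positivity)]; linarith
    have h8 : ((n : ℝ) + 3 / 2) * (1 - 1 / (4 * (n + 2))) ≤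
        ((n : ℝ) + 3 / 2) * (1 + θ * g₀) * (1 - 1 / (4 * (n + 2))) := by
      refine mul_le_mul_of_nonneg_right ?_ h7.le
      exact le_mul_of_one_le_right (by positivity) h6
    have h9 : (n : ℝ) + 1 < ((n : ℝ) + 3 / 2) * (1 - 1 / (4 * (n + 2))) := by
      have e3 : (n + 3 / 2) * (1 / (4 * ((n : ℝ) + 2))) < 1 / 2 := by
        rw [mul_one_div, div_lt_div_iff₀ (by positivity) (by norm_num)]
        linarith
      linarith
    linarith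

/-- The choice of `θ₀` and of `r < n + 1`. -/
theorem exists_params {n : ℕ} (hn : 1 ≤ n) {g₀ δ : ℝ} (hg : 0 < g₀) (hδ : 0 < δ) :
    ∃ θ₀ r ε : ℝ, 0 < θ₀ ∧ θ₀ ≤ 1 / 2 ∧ 1 ≤ r ∧ r < n + 1 ∧ 0 < ε ∧ ε ≤ 1 / 2 ∧
      n < (1 - θ₀) * (r * ((n : ℝ) / (n + 1) + δ)) ∧
      (n : ℝ) + 1 < r * (1 + θ₀ * g₀) * (1 - ε) := by
  have hn0 : (0 : ℝ) ≤ n := Nat.cast_nonneg n
  have hn1 : (1 : ℝ) ≤ n := by exact_mod_cast hn
  have hnn : (0 : ℝ) < (n : ℝ) + 1 := by positivity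
  set A : ℝ := (n : ℝ) / (n + 1) + δ with hA
  have hA0 : 0 < A := by positivity
  have hnA : (n : ℝ) < (n + 1) * A := by
    have : ((n : ℝ) + 1) * A = n + (n + 1) * δ := by
      rw [hA]; field_simp
    rw [this]
    linarith [mul_pos hnn hδ]
  set q : ℝ := n / ((n + 1) * A) with hq
  have hq1 : q < 1 := by rw [hq, div_lt_one (by positivity)]; exact hnA
  have hq0 : 0 ≤ q := by positivity
  set θ₀ : ℝ := (1 - q) / 2 with hθ₀
  have hθ₀0 : 0 < θ₀ := by linarith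
  have hθ₀1 : θ₀ ≤ 1 / 2 := by linarith
  have hp : 0 < θ₀ * g₀ := mul_pos hθ₀0 hg
  obtain ⟨η, hη0, hη1, hη2, hη3⟩ : ∃ η : ℝ, 0 < η ∧ η ≤ n ∧
      n < (1 - θ₀) * ((n + 1 - η) * A) ∧ (n : ℝ) + 1 < (n + 1 - η) * (1 + θ₀ * g₀) := by
    have hlim1 : Filter.Tendsto (fun η : ℝ => (1 - θ₀) * (((n : ℝ) + 1 - η) * A))
        (nhdsWithin 0 (Set.Ioi 0)) (nhds ((1 - θ₀) * (((n : ℝ) + 1 - 0) * A))) := by
      refine Filter.Tendsto.mono_left ?_ nhdsWithin_le_nhds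
      exact (Continuous.tendsto (by fun_prop) _)
    have hlim2 : Filter.Tendsto (fun η : ℝ => ((n : ℝ) + 1 - η) * (1 + θ₀ * g₀))
        (nhdsWithin 0 (Set.Ioi 0)) (nhds (((n : ℝ) + 1 - 0) * (1 + θ₀ * g₀))) := by
      refine Filter.Tendsto.mono_left ?_ nhdsWithin_le_nhds
      exact (Continuous.tendsto (by fun_prop) _)
    have e1 : (n : ℝ) < (1 - θ₀) * (((n : ℝ) + 1 - 0) * A) := by
      have h1 : 1 - θ₀ = (1 + q) / 2 := by rw [hθ₀]; ring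
      have h2 : (n : ℝ) = q * ((n + 1) * A) := by
        rw [hq]; field_simp
      rw [sub_zero, h1]
      have h3 : (0 : ℝ) < (n + 1) * A := by positivity
      have h4 : q < (1 + q) / 2 := by linarith
      calc (n : ℝ) = q * ((n + 1) * A) := h2
        _ < (1 + q) / 2 * ((n + 1) * A) := mul_lt_mul_of_pos_right h4 h3
    have e2 : (n : ℝ) + 1 < ((n : ℝ) + 1 - 0) * (1 + θ₀ * g₀) := by
      rw [sub_zero]
      linarith [mul_pos hnn hp]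
    have h3 := (hlim1.eventually (lt_mem_nhds e1)).and (hlim2.eventually (lt_mem_nhds e2))
    have h4 : ∀ᶠ η : ℝ in nhdsWithin 0 (Set.Ioi 0), 0 < η ∧ η ≤ n := by
      filter_upwards [Ioo_mem_nhdsGT (show (0 : ℝ) < 1 by norm_num)] with η hη
      exact ⟨hη.1, by linarith [hη.2]⟩
    obtain ⟨η, h5, h6, h7⟩ := (h4.and h3).exists
    exact ⟨η, h5.1, h5.2, h6, h7⟩
  obtain ⟨ε, hε0, hε1, hε2⟩ : ∃ ε : ℝ, 0 < ε ∧ ε ≤ 1 / 2 ∧
      (n : ℝ) + 1 < (n + 1 - η) * (1 + θ₀ * g₀) * (1 - ε) := by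
    have hlim : Filter.Tendsto (fun ε : ℝ => ((n : ℝ) + 1 - η) * (1 + θ₀ * g₀) * (1 - ε))
        (nhdsWithin 0 (Set.Ioi 0)) (nhds (((n : ℝ) + 1 - η) * (1 + θ₀ * g₀) * (1 - 0))) := by
      refine Filter.Tendsto.mono_left ?_ nhdsWithin_le_nhds
      exact (Continuous.tendsto (by fun_prop) _)
    have h4 : ∀ᶠ ε : ℝ in nhdsWithin 0 (Set.Ioi 0), 0 < ε ∧ ε ≤ 1 / 2 := by
      filter_upwards [Ioo_mem_nhdsGT (show (0 : ℝ) < 1 / 2 by norm_num)] with ε hε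
      exact ⟨hε.1, hε.2.le⟩
    obtain ⟨ε, h5, h6⟩ := (h4.and (hlim.eventually (lt_mem_nhds
      (by rw [sub_zero, mul_one]; exact hη3)))).exists
    exact ⟨ε, h5.1, h5.2, h6⟩
  exact ⟨θ₀, n + 1 - η, ε, hθ₀0, hθ₀1, by linarith, by linarith, hε0, hε1, hη2, hε2⟩

/-- The gap between `os / mN` and `n / (n + 1)`, outside the equality case. -/
theorem exists_gap {n ell : ℕ} (hn : 1 ≤ n) (hell : 1 ≤ ell) (G : Prop) (os mN : ℕ → ℝ)
    (hmN : ∃ T₀ : ℕ, ∀ T ≥ T₀, 0 < mN T)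
    (hos : ∀ ε : ℝ, 0 < ε → ∃ T₀ : ℕ, ∀ T ≥ T₀,
      ((n : ℝ) / (n + 1) * (ell : ℝ) ^ ((1 : ℝ) / n) - ε) * mN T ≤ os T)
    (hEq : ell = 1 → (∀ δ : ℝ, 0 < δ → ∃ T₀ : ℕ, ∀ T ≥ T₀,
      os T ≤ ((n : ℝ) / (n + 1) + δ) * mN T) → G) :
    G ∨ ∃ δ : ℝ, 0 < δ ∧ ∀ T₀ : ℕ, ∃ T ≥ T₀, ((n : ℝ) / (n + 1) + δ) * mN T < os T := by
  have hn1 : (1 : ℝ) ≤ n := by exact_mod_cast hn
  obtain ⟨T₁, hT₁⟩ := hmN
  rcases Nat.lt_or_ge 1 ell with h1 | h1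
  · right
    have hl2 : 1 < (ell : ℝ) ^ ((1 : ℝ) / n) :=
      Real.one_lt_rpow (by exact_mod_cast h1) (by positivity)
    set L : ℝ := (ell : ℝ) ^ ((1 : ℝ) / n) with hL
    have hnp : (0 : ℝ) < (n : ℝ) / (n + 1) := by positivity
    have hpos : 0 < (n : ℝ) / (n + 1) * (L - 1) := mul_pos hnp (by linarith)
    refine ⟨(n : ℝ) / (n + 1) * (L - 1) / 3, by linarith, fun T₀ => ?_⟩
    obtain ⟨T₂, hT₂⟩ := hos ((n : ℝ) / (n + 1) * (L - 1) / 3) (by linarith)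
    refine ⟨max T₀ (max T₁ T₂), le_max_left _ _, ?_⟩
    have hm := hT₁ (max T₀ (max T₁ T₂)) ((le_max_left _ _).trans (le_max_right _ _))
    refine lt_of_lt_of_le (mul_lt_mul_of_pos_right ?_ hm)
      (hT₂ _ ((le_max_right _ _).trans (le_max_right _ _)))
    have e : (n : ℝ) / (n + 1) * L = (n : ℝ) / (n + 1) * (L - 1) + (n : ℝ) / (n + 1) := by ring
    rw [e]
    linarith
  · have hell1 : ell = 1 := by omega
    by_cases hE : ∀ δ : ℝ, 0 < δ → ∃ T₀ : ℕ, ∀ T ≥ T₀,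
        os T ≤ ((n : ℝ) / (n + 1) + δ) * mN T
    · exact Or.inl (hEq hell1 hE)
    · push Not at hE
      obtain ⟨δ, hδ, hδ'⟩ := hE
      exact Or.inr ⟨δ, hδ, hδ'⟩

theorem free_num {n ell : ℕ} (hn : 1 ≤ n) (hell : 1 ≤ ell) (Gen : ℕ → Prop) (os mN : ℕ → ℝ)
    {g₀ : ℝ} (hg : 0 < g₀) (hmN : ∃ T₀ : ℕ, ∀ T ≥ T₀, 0 < mN T)
    (hos : ∀ ε : ℝ, 0 < ε → ∃ T₀ : ℕ, ∀ T ≥ T₀,
      ((n : ℝ) / (n + 1) * (ell : ℝ) ^ ((1 : ℝ) / n) - ε) * mN T ≤ os T)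
    (H : ∀ r : ℝ, 1 ≤ r → r ≤ n + 2 → ∀ ε : ℝ, 0 < ε → ∃ T₀ : ℕ, ∀ T ≥ T₀,
      n * mN T < r * os T → Alt n Gen g₀ r ε (os T) (mN T))
    (hEq : ell = 1 → (∀ δ : ℝ, 0 < δ → ∃ T₀ : ℕ, ∀ T ≥ T₀,
      os T ≤ ((n : ℝ) / (n + 1) + δ) * mN T) → Gen (n + 1)) :
    ∀ M : ℕ, n + 1 ≤ M → Gen M := by
  intro M hM
  rcases Nat.lt_or_ge (n + 1) M with h | h
  · exact free_two hn hell Gen os mN hg hmN hos H M h
  have hMn : M = n + 1 := by omega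
  subst hMn
  rcases exists_gap hn hell (Gen (n + 1)) os mN hmN hos hEq with hgen | ⟨δ, hδ, hδT⟩
  · exact hgen
  obtain ⟨θ₀, r, ε, hθ₀0, hθ₀1, hr1, hr2, hε0, hε1, hη2, hη3⟩ := exists_params hn hg hδ
  obtain ⟨T₁, hT₁⟩ := hmN
  obtain ⟨T₃, hT₃⟩ := H r hr1 (by linarith) ε hε0
  obtain ⟨T, hTT, hTos⟩ := hδT (max T₁ T₃)
  have hm := hT₁ T ((le_max_left _ _).trans hTT)
  set A : ℝ := (n : ℝ) / (n + 1) + δ with hA
  have hA0 : 0 < A := by positivity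
  have hlt : n * mN T < (1 - θ₀) * (r * os T) := by
    calc n * mN T < (1 - θ₀) * (r * A) * mN T := mul_lt_mul_of_pos_right hη2 hm
      _ = (1 - θ₀) * (r * (A * mN T)) := by ring
      _ ≤ _ := by
          refine mul_le_mul_of_nonneg_left (mul_le_mul_of_nonneg_left hTos.le (by linarith))
            (by linarith)
  have hos0 : 0 ≤ r * os T := by
    have : 0 ≤ os T := le_trans (by positivity) hTos.le
    exact mul_nonneg (by linarith) this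
  have hlt' : n * mN T < r * os T := by
    have := mul_nonneg hθ₀0.le hos0
    linarith
  obtain ⟨θ, hθ0, hθ1, hθ2, hgen | hbad⟩ := hT₃ T ((le_max_right _ _).trans hTT) hlt'
  · exact hgen (n + 1) (by push_cast; linarith)
  · exfalso
    have hθθ : θ₀ ≤ θ := by
      by_contra hlt2
      push Not at hlt2
      have : (1 - θ₀) * (r * os T) ≤ (1 - θ) * (r * os T) :=
        mul_le_mul_of_nonneg_right (by linarith) hos0
      linarith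
    have h6 : 1 + θ₀ * g₀ ≤ 1 + θ * g₀ := by
      linarith [mul_le_mul_of_nonneg_right hθθ hg.le]
    have h9 : r * (1 + θ₀ * g₀) * (1 - ε) ≤ r * (1 + θ * g₀) * (1 - ε) :=
      mul_le_mul_of_nonneg_right (mul_le_mul_of_nonneg_left h6 (by linarith)) (by linarith)
    linarith

end Vale.Agent.P271.Main
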