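import Vale.Agent.P271.Main.FreeDefs
import Vale.Agent.P271.Main.FreeNum

/-!
# P271 / Main / Free : the top of the chain-free proof (helper500)

`FreeBlocks.gen` : `FreeBlocks C z m1 ell → ∀ M ≥ n + 1, C.Gen M z`.
-/

namespace Vale.Agent.P271.Main

open Module Filt Filt.Wt Chain Sch H43

theorem path_kap {m x₀ θ : ℝ} {N : ℕ} :
    Slope.path (kap0 m x₀ N) (kap1 m x₀ N) θ = kapT m x₀ θ N := by
  funext i
  unfold Slope.path kap0 kap1 kapT H507.kap
  split_ifs <;> ring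

theorem kap0_apply {m x₀ : ℝ} {N : ℕ} (i : Fin N) : kap0 m x₀ N i = 1 / (m * N) := by
  unfold kap0 H507.kap
  split_ifs <;> ring

theorem kap0_pos {m x₀ : ℝ} (hm : 0 < m) {N : ℕ} (i : Fin N) : 0 < kap0 m x₀ N i := by
  rw [kap0_apply]
  have : (0 : ℝ) < N := by exact_mod_cast i.pos
  positivity

theorem kap0_mono {m x₀ : ℝ} {N : ℕ} : Monotone (kap0 m x₀ N) := H507.kap_mono le_rfl

theorem kap1_mono {m x₀ : ℝ} (hm : 0 < m) {N : ℕ} : Monotone (kap1 m x₀ N) :=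
  H507.kap_mono (by positivity)

theorem kap1_nonneg {m x₀ : ℝ} (hm : 0 < m) {N : ℕ} (i : Fin N) : 0 ≤ kap1 m x₀ N i :=
  H507.kap_nonneg le_rfl (by positivity) i

theorem sum_kapT {m x₀ θ : ℝ} (hm : 0 < m) (h0 : 0 < x₀) (h1 : x₀ ≤ 1) {N : ℕ} (hN : 1 ≤ N) :
    ∑ i, kapT m x₀ θ N i = 1 / m := by
  unfold kapT
  rw [H507.sum_kap (msz_le h1 N)]
  have hN' : (0 : ℝ) < N := by exact_mod_cast hN
  have hM : (0 : ℝ) < msz x₀ N := by exact_mod_cast msz_pos h0 hN
  field_simp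
  ring

theorem S_kap0 {V : Type*} [AddCommGroup V] [Module ℂ V] [FiniteDimensional ℂ V] {m x₀ : ℝ}
    (G : Wt ℂ V) : S (kap0 m x₀ (finrank ℂ V)) G = 1 / (m * finrank ℂ V) * G.T := by
  have : kap0 m x₀ (finrank ℂ V) = (1 / (m * finrank ℂ V)) • fun _ => (1 : ℝ) := by
    funext i
    rw [kap0_apply, Pi.smul_apply, smul_eq_mul, mul_one]
  rw [this, S_smul, S_one]

variable {n : ℕ} {C : GCone n} {z : C.Pt} {m1 ell : ℕ} [∀ k, FiniteDimensional ℂ (C.A k)]

/-- The bound of the uniform functional. -/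
theorem S_kap0_le {V : Type*} [AddCommGroup V] [Module ℂ V] [FiniteDimensional ℂ V] {m x₀ c A : ℝ}
    (hm : 0 < m) (hN : 0 < finrank ℂ V) {G : Wt ℂ V} (h : ∀ x, x ≠ 0 → G.w x ≤ c * m * A) :
    S (kap0 m x₀ (finrank ℂ V)) G ≤ c * A := by
  have hN' : (0 : ℝ) < finrank ℂ V := by exact_mod_cast hN
  rw [S_kap0, ← (adapted_antib G).sum_eq]
  have h1 : ∑ i, G.w (antib G i) ≤ ∑ _i : Fin (finrank ℂ V), c * m * A :=
    Finset.sum_le_sum fun i _ => h _ ((antib G).ne_zero i)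
  rw [Finset.sum_const, Finset.card_univ, Fintype.card_fin, nsmul_eq_mul] at h1
  calc 1 / (m * finrank ℂ V) * ∑ i, G.w (antib G i)
      ≤ 1 / (m * finrank ℂ V) * (finrank ℂ V * (c * m * A)) :=
        mul_le_mul_of_nonneg_left h1 (by positivity)
    _ = c * A := by field_simp

theorem finrank_pos_of_hz {T : ℕ} (h : Hz C z m1 T ≠ ⊥) : 0 < finrank ℂ (VA C m1 T) := by
  obtain ⟨x, -, hx0⟩ := Submodule.exists_mem_ne_zero_of_ne_bot h
  have : Nontrivial (VA C m1 T) := ⟨x, 0, hx0⟩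
  exact finrank_pos

/-- The alternative at a level. -/
theorem FreeBlocks.alt (B : FreeBlocks C z m1 ell) {x₀ : ℝ} (hx0 : 0 < x₀) (hx1 : x₀ < 1)
    (hconc : ∃ T₀ : ℕ, ∀ T ≥ T₀, ∀ G : Wt ℂ (VA C m1 T), Dom (Hz C z m1 T) G →
      ((n : ℝ) + 3) * S (kap1 (m1 * T) x₀ (finrank ℂ (VA C m1 T))) G ≤ B.a T G)
    {r : ℝ} (hr1 : 1 ≤ r) (hr2 : r ≤ n + 2) {ε : ℝ} (hε : 0 < ε) :
    ∃ T₀ : ℕ, ∀ T ≥ T₀, n * ((m1 : ℝ) * T * finrank ℂ (VA C m1 T)) < r * B.os T →
      Alt n (fun M => C.Gen M z) (gam n x₀ - 1) r ε (B.os T)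
        (m1 * T * finrank ℂ (VA C m1 T)) := by
  obtain ⟨T₁, hconc⟩ := hconc
  obtain ⟨T₂, hhz⟩ := B.hz_ne
  obtain ⟨T₃, hslope⟩ := B.slope
  obtain ⟨c, hc, T₄, hlow⟩ := B.low
  obtain ⟨T₅, huni⟩ := B.uni
  obtain ⟨T₆, hcen⟩ := B.cen
  obtain ⟨T₇, hfin⟩ := B.fin
  have hr0 : 0 < r := by linarith
  have hrr : r < (n : ℝ) + 3 := by linarith
  have hgap : 0 < 1 / r - 1 / ((n : ℝ) + 3) := by
    rw [sub_pos]; exact one_div_lt_one_div_of_lt hr0 hrr
  have hθ₁ : 1 - (1 / r - 1 / ((n : ℝ) + 3)) / c < 1 := by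
    have := div_pos hgap hc
    linarith
  obtain ⟨T₈, hk3⟩ := B.k3w (min ε (1 / 2)) (by positivity)
    (lt_of_le_of_lt (min_le_right _ _) (by norm_num)) x₀ hx0 hx1 _ hθ₁
  refine ⟨max 1 (max T₁ (max T₂ (max T₃ (max T₄ (max T₅ (max T₆ (max T₇ T₈))))))),
    fun T hT hos => ?_⟩
  simp only [ge_iff_le, max_le_iff] at hT
  obtain ⟨hT0, hT1, hT2, hT3, hT4, hT5, hT6, hT7, hT8⟩ := hT
  have hm : (0 : ℝ) < (m1 : ℝ) * T := by
    have h1 : (0 : ℝ) < m1 := by exact_mod_cast B.m1_pos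
    have h2 : (0 : ℝ) < T := by exact_mod_cast hT0
    positivity
  have hN := finrank_pos_of_hz (hhz T hT2)
  have hN' : (0 : ℝ) < finrank ℂ (VA C m1 T) := by exact_mod_cast hN
  set N := finrank ℂ (VA C m1 T) with hNdef
  obtain ⟨c0, hsl⟩ := hslope T hT3
  obtain ⟨E, hED, hEa, hET⟩ := huni T hT5
  have hmN : 0 < (m1 : ℝ) * T * N := by positivity
  have hosr : 0 < r * B.os T := lt_of_le_of_lt (by positivity) hos
  have hosp : 0 < B.os T := pos_of_mul_pos_right hosr hr0.le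
  have hSE : S (kap0 (m1 * T) x₀ N) E = B.os T / (m1 * T * N) := by
    rw [S_kap0, hET]; ring
  have hSE0 : 0 < S (kap0 (m1 * T) x₀ N) E := by rw [hSE]; positivity
  obtain ⟨θ, hθ0, hθlt, hθC, hθR, F, hF⟩ := hsl.exists_theta (κ0 := kap0 (m1 * T) x₀ N)
    (κ1 := kap1 (m1 * T) x₀ N) kap0_mono (kap1_mono hm) (kap0_pos hm) (kap1_nonneg hm)
    (hhz T hT2) hc hr0 hrr
    (fun G hG => S_kap0_le hm hN fun x hx => hlow T hT4 G hG x hx)
    (fun G hG => hconc T hT1 G hG)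
    ⟨E, hED, hSE0, by
      refine hEa.trans ?_
      rw [hSE, ← mul_div_assoc, le_div_iff₀ hmN]
      exact hos.le⟩
  rw [path_kap] at hF
  refine ⟨θ, hθ0, hθlt, ?_, ?_⟩
  · have h1 := hθR (n / S (kap0 (m1 * T) x₀ N) E) E hED hSE0 (by
      rw [div_mul_cancel₀ _ hSE0.ne']; exact hEa)
    rw [le_div_iff₀ hSE0, hSE, ← mul_div_assoc, div_le_iff₀ hmN] at h1
    linarith
  · obtain ⟨P, hP⟩ := hcen T hT6 _ _ _ hF
    by_cases hPz : P = pz z
    · left
      subst hPz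
      intro M hM
      refine hfin T hT7 _ _ _ hF hP M ?_
      rw [sum_kapT hm hx0 hx1.le hN, mul_one_div, div_mul_cancel₀ _ hm.ne']
      exact hM
    · right
      have hθ₁' : θ ≤ 1 - (1 / r - 1 / ((n : ℝ) + 3)) / c := by
        have : (1 / r - 1 / ((n : ℝ) + 3)) / c ≤ 1 - θ := by
          rw [div_le_iff₀ hc]; exact hθC
        linarith
      have h1 := hk3 T hT8 θ hθ0 hθ₁' r F P hF hP hPz
      rcases le_or_gt (r * (1 + θ * (gam n x₀ - 1))) 0 with h2 | h2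
      · rcases le_or_gt ε 1 with h3 | h3
        · have : r * (1 + θ * (gam n x₀ - 1)) * (1 - ε) ≤ 0 :=
            mul_nonpos_of_nonpos_of_nonneg h2 (by linarith)
          have hn0 : (0 : ℝ) ≤ n := Nat.cast_nonneg n
          linarith
        · rcases Nat.eq_zero_or_pos n with hn | hn
          · exfalso
            subst hn
            have hmin : min ε (1 / 2) = 1 / 2 := min_eq_right (by linarith)
            rw [hmin] at h1
            have h4 : gam 0 x₀ = 1 := by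
              unfold gam
              simp only [Nat.cast_zero, div_zero, add_zero, Real.rpow_one]
              rw [sub_sub_cancel]
              exact div_self hx0.ne'
            rw [h4, sub_self, mul_zero, add_zero, mul_one] at h2
            linarith
          · exfalso
            have h4 := one_lt_gam hn hx0 hx1
            have : 0 < r * (1 + θ * (gam n x₀ - 1)) := by
              have : 0 ≤ θ * (gam n x₀ - 1) := mul_nonneg hθ0 (by linarith)
              positivity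
            linarith
      · refine le_trans (mul_le_mul_of_nonneg_left ?_ h2.le) h1
        have := min_le_left ε (1 / 2)
        linarith

/-- **The top of the chain-free proof.** -/
theorem FreeBlocks.gen (hn : 1 ≤ n) (B : FreeBlocks C z m1 ell) :
    ∀ M : ℕ, n + 1 ≤ M → C.Gen M z := by
  obtain ⟨x₀, hx0, hx1, hconc⟩ := B.conc ((n : ℝ) + 3) (by positivity)
  obtain ⟨T₂, hhz⟩ := B.hz_ne
  refine free_num hn B.ell_pos (fun M => C.Gen M z) B.os
    (fun T => (m1 : ℝ) * T * finrank ℂ (VA C m1 T)) (g₀ := gam n x₀ - 1)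
    (sub_pos.2 (one_lt_gam hn hx0 hx1)) ⟨max 1 T₂, fun T hT => ?_⟩ B.hos ?_ B.eq
  · have h1 : (0 : ℝ) < m1 := by exact_mod_cast B.m1_pos
    have h2 : (0 : ℝ) < T := by exact_mod_cast (le_max_left _ _).trans hT
    have h3 : (0 : ℝ) < finrank ℂ (VA C m1 T) := by
      exact_mod_cast finrank_pos_of_hz (hhz T ((le_max_right _ _).trans hT))
    positivity
  · intro r hr1 hr2 ε hε
    exact B.alt hx0 hx1 hconc hr1 hr2 hε

end Vale.Agent.P271.Main
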