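import Vale.Agent.P271.Main.CSys
import Vale.Agent.P271.H837.KS4

/-!
# P271 / Main / FreeFin : field `fin` of `FreeBlocks` from END (helper965)

A minimiser whose centre is the orbit of `z`: 837's exponent vectors of degree
`≤ R * ∑ κ * (m1 * T) + ε` are the input of END (`CSys.EndStat`).
-/

set_option linter.all false

namespace Vale.Agent.P271.Main

open Module Filt Filt.Wt Chain Sch Inst Zorn Exp H43 H84 Finsupp

variable {n : ℕ}

namespace CSys

variable {C : GCone n} (S : CSys C) {z : NVPt C} {m1 : ℕ}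

theorem mem_pz {z : C.Pt} (f : HM C) (hf : z (f : C.R) = 0) : (f : C.R) ∈ pz z := by
  unfold pz
  exact Ideal.mem_homogeneousCore_of_homogeneous_of_mem ⟨HM.deg f, HM.deg_mem f⟩ hf

theorem pair_sum {H : Type*} {ι : Type*} (s : Finset ι) (f : ι → H) (k : ι → ℝ) (w : H → ℝ) :
    pair (∑ i ∈ s, single (f i) (k i)) w = ∑ i ∈ s, k i * w (f i) := by
  unfold pair
  rw [map_sum]
  exact Finset.sum_congr rfl fun i _ => by rw [linearCombination_single, smul_eq_mul]

variable [∀ k, FiniteDimensional ℂ (C.A k)]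

/-- Field `fin`. -/
theorem fin (hEnd : S.EndStat z) {T : ℕ} {κ : Fin (finrank ℂ (VA C m1 T)) → ℝ} {R : ℝ}
    {F : Wt ℂ (VA C m1 T)} (h : Minim (Hz C z.1 m1 T) (S.a z m1 T) κ R F)
    (hc : S.IsCen z m1 T F (pz z.1)) {M : ℕ} (hM : R * (∑ i, κ i) * (m1 * T) < M) :
    C.Gen M z.1 := by
  classical
  obtain ⟨v, hv, h0, hF, hval, hP⟩ := hc
  have hR : S.a z m1 T F = R := h.a_eq
  have hmE := S.minim_E h
  have hVm : ∀ y ∈ VA C m1 T, HmOf (HM C) y := HmOf_of_mem
  have hκs : 0 ≤ ∑ i, κ i := Finset.sum_nonneg fun i _ => (h.κpos i).le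
  have hmT : (0 : ℝ) ≤ (m1 : ℝ) * T := by positivity
  have hr0 : 0 ≤ R * (∑ i, κ i) * (m1 * T) := mul_nonneg (mul_nonneg h.Rpos.le hκs) hmT
  refine hEnd v (S.a z m1 T F) hv ?_ (R * (∑ i, κ i) * (m1 * T)) hr0 ?_ M hM
  · intro f hf
    rw [← mem_P_coe hval f, ← hP]
    exact mem_pz f hf
  · intro ε hε
    set ε' : ℝ := ε / (m1 * T + 1) with hε'
    have hpos : (0 : ℝ) < (m1 : ℝ) * T + 1 := by linarith
    have hε'0 : 0 < ε' := div_pos hε hpos
    have hε'1 : ε' ≤ ε := div_le_self hε.le (by linarith)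
    have hε'2 : (m1 * T : ℝ) * ε' ≤ ε := by
      have : (m1 * T + 1 : ℝ) * ε' = ε := mul_div_cancel₀ ε hpos.ne'
      nlinarith
    obtain ⟨k, hk0, hkz, hkP, hk1, hk2, hk3⟩ :=
      H837.approx_of_min (P := S.E.P z) (Hm := HmOf (HM C)) (j := (VA C m1 T).subtype)
        (S.E.isExp z) Subtype.val_injective S.E.hm_algebraMap (fun y => hVm _ y.2) h.mono
        (fun i => (h.κpos i).le) h.Rpos.le (Minim.vsl_min S.E hVm hmE)
        (fun x hx => h.dom.nonneg x hx) (Minim.vsl S.E hVm hmE) (adapted_antib F)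
        (antitone_antib F) hε'0
    set b := antib F with hb
    have hbne : ∀ i, b i ≠ 0 := b.ne_zero
    refine ⟨∑ i, single (⟨(b i : C.R), mem_HM_of (b i) (hbne i)⟩ : HM C) (k i), ?_, ?_, ?_, ?_⟩
    · rw [← mapDomain_mem_extP, ← S.P_eq]
      have h1 : (∑ i, single (⟨(b i : C.R), mem_HM_of (b i) (hbne i)⟩ : HM C) (k i)).mapDomain
          (fun h : HM C => (h : C.R)) = ∑ i, single ((VA C m1 T).subtype (b i)) (k i) := by
        rw [Finsupp.mapDomain_finsetSum]
        exact Finset.sum_congr rfl fun i _ => by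
          rw [Finsupp.mapDomain_single]; rfl
      rw [h1]
      exact hkP
    · intro f
      rw [Finsupp.finset_sum_apply]
      exact Finset.sum_nonneg fun i _ => by
        rw [single_apply]
        split_ifs
        · exact hk0 i
        · exact le_rfl
    · rw [pair_sum]
      have h2 : ∑ i, k i * v ⟨(b i : C.R), mem_HM_of (b i) (hbne i)⟩ = ∑ i, k i * F.w (b i) :=
        Finset.sum_congr rfl fun i _ => by rw [hF (b i) (hbne i)]
      rw [h2, hR]
      rw [h.S_eq, mul_one] at hk1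
      linarith
    · rw [pair_sum]
      have h3 : ∑ i, k i * (HM.deg (⟨(b i : C.R), mem_HM_of (b i) (hbne i)⟩ : HM C) : ℝ) =
          (∑ i, k i) * (m1 * T) := by
        rw [Finset.sum_mul]
        refine Finset.sum_congr rfl fun i _ => ?_
        rw [HM.deg_eq (⟨(b i : C.R), mem_HM_of (b i) (hbne i)⟩ : HM C) (b i).2]
        push_cast
        ring
      rw [h3]
      have h4 := mul_le_mul_of_nonneg_right hk3 hmT
      nlinarith

end CSys

end Vale.Agent.P271.Main
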