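import Vale.Agent.P271.Main.FieldsA
import Vale.Agent.P271.Main.Free
import Vale.Agent.P271.Main.FreeFin
import Vale.Agent.P271.H244.EndStat
import Vale.Agent.P271.Uni.Ord

/-!
# P271 / Main / FreeInst : the instantiation of `FreeBlocks` (helper684)

`freeBlocks`: all fields of `FreeBlocks` for a graded cone, from the remaining blocks
`GlobEnd`, `ConcStat`, `UniStat`, `OsStat`, `EqStat`, `K3WStat`.
-/

set_option linter.all false

namespace Vale.Agent.P271.Main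

open Module Filt Filt.Wt Chain Sch Inst Zorn Exp H43 H84 Drop Deg Ver

variable {n : ℕ} {C : GCone n} [∀ k, FiniteDimensional ℂ (C.A k)]

/-- The total order of vanishing at `z` on `A_{m1 T}`. -/
noncomputable def osum (z : NVPt C) (m1 T : ℕ) : ℝ := (Uni.ordW z.1 (m1 * T)).T

/-- Field `conc` as a statement. -/
def ConcStat (Sy : CSys C) (z : NVPt C) (m1 : ℕ) : Prop :=
  ∀ R : ℝ, 0 < R → ∃ x₀ : ℝ, 0 < x₀ ∧ x₀ < 1 ∧ ∃ T₀ : ℕ, ∀ T ≥ T₀,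
    ∀ G : Wt ℂ (VA C m1 T), Dom (Hz C z.1 m1 T) G →
      R * S (kap1 (m1 * T) x₀ (finrank ℂ (VA C m1 T))) G ≤ Sy.a z m1 T G

/-- Field `uni` as a statement. -/
def UniStat (Sy : CSys C) (z : NVPt C) (m1 : ℕ) : Prop :=
  ∃ T₀ : ℕ, ∀ T ≥ T₀, ∃ E : Wt ℂ (VA C m1 T), Dom (Hz C z.1 m1 T) E ∧ Sy.a z m1 T E ≤ n ∧
    E.T = osum z m1 T

/-- Field `hos` as a statement. -/
def OsStat (z : NVPt C) (m1 ell : ℕ) : Prop :=
  ∀ ε : ℝ, 0 < ε → ∃ T₀ : ℕ, ∀ T ≥ T₀,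
    ((n : ℝ) / (n + 1) * (ell : ℝ) ^ ((1 : ℝ) / n) - ε) *
      (m1 * T * finrank ℂ (VA C m1 T)) ≤ osum z m1 T

/-- Field `eq` as a statement. -/
def EqStat (z : NVPt C) (m1 ell : ℕ) : Prop :=
  ell = 1 → (∀ δ : ℝ, 0 < δ → ∃ T₀ : ℕ, ∀ T ≥ T₀,
    osum z m1 T ≤ ((n : ℝ) / (n + 1) + δ) * (m1 * T * finrank ℂ (VA C m1 T))) → C.Gen (n + 1) z.1

/-- Field `k3w` as a statement. -/
def K3WStat (Sy : CSys C) (z : NVPt C) (m1 : ℕ) : Prop :=
  ∀ ε : ℝ, 0 < ε → ε < 1 → ∀ x₀ : ℝ, 0 < x₀ → x₀ < 1 → ∀ θ₁ : ℝ, θ₁ < 1 → ∃ T₀ : ℕ,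
    ∀ T ≥ T₀, ∀ θ : ℝ, 0 ≤ θ → θ ≤ θ₁ → ∀ R F P,
      Minim (Hz C z.1 m1 T) (Sy.a z m1 T) (kapT (m1 * T) x₀ θ (finrank ℂ (VA C m1 T))) R F →
      Sy.IsCen z m1 T F P → P ≠ pz z.1 → R * (1 + θ * (gam n x₀ - 1)) * (1 - ε) ≤ n + 1

/-- **The instantiation of `FreeBlocks`.** -/
noncomputable def freeBlocks (hn : 1 ≤ n) (Sy : CSys C) (z : NVPt C) {m1 ell : ℕ}
    (hv : VerOK C.A m1) (hell : 1 ≤ ell) (hEnd : Sy.EndStat z) (hconc : ConcStat Sy z m1)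
    (huni : UniStat Sy z m1) (hos : OsStat z m1 ell) (heq : EqStat z m1 ell)
    (hk3w : K3WStat Sy z m1) : FreeBlocks C z.1 m1 ell where
  a := Sy.a z m1
  IsCen := Sy.IsCen z m1
  os := osum z m1
  m1_pos := hv.pos
  ell_pos := hell
  hz_ne := hz_ne hv z.2 hn
  slope := ⟨0, fun T _ => Sy.slope z m1 T⟩
  low := Sy.low z hv.pos
  conc := hconc
  uni := huni
  hos := hos
  eq := heq
  cen := ⟨0, fun T _ κ R F h => Sy.cen h⟩
  fin := ⟨0, fun T _ κ R F h hc M hM => Sy.fin hEnd h hc hM⟩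
  k3w := hk3w

/-- The remaining blocks, for one cone, one point and one good Veronese index. -/
structure Rest (z : NVPt C) (m1 : ℕ) : Prop where
  conc : ConcStat (csys C) z m1
  uni : UniStat (csys C) z m1
  os : ∀ ell : ℕ, 1 ≤ ell → TwoSided n (ell * m1 ^ n) (hilb (VA C m1) (⊥ : Ideal C.R)) →
    OsStat z m1 ell
  eq : ∀ ell : ℕ, 1 ≤ ell → TwoSided n (ell * m1 ^ n) (hilb (VA C m1) (⊥ : Ideal C.R)) →
    EqStat z m1 ell
  k3w : K3WStat (csys C) z m1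

/-- **Fujita's freeness statement for one point of a graded cone**, from the remaining blocks. -/
theorem gen_of_rest (hG : H741.GlobEnd) (hn : 1 ≤ n) (z : NVPt C) {m1 : ℕ} (hv : VerOK C.A m1)
    (h : Rest z m1) (M : ℕ) (hM : n + 1 ≤ M) : C.Gen M z.1 := by
  obtain ⟨d, ell, hell, hTS⟩ := H58.pd' hv z.2 (H58.hprime_bot (z := z.1))
  have hd : d = n := H58.pd_bot hv z.2 (Nat.mul_pos hell (pow_pos hv.pos _)) hTS
  subst hd
  exact (freeBlocks hn (csys C) z hv hell (H244.endStat hG hn (csys C) z ((csys C).P_ES z))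
    h.conc h.uni (h.os ell hell hTS) (h.eq ell hell hTS) h.k3w).gen hn M hM

omit [∀ k, FiniteDimensional ℂ (C.A k)] in
/-- **The hub theorem** from the remaining blocks. -/
theorem hubFujita_of (hG : H741.GlobEnd)
    (h : ∀ (n : ℕ) (_ : 1 ≤ n) (C : GCone n) [∀ k, FiniteDimensional ℂ (C.A k)] (z : NVPt C)
      (m1 : ℕ), VerOK C.A m1 → Rest z m1) : HubFujita := by
  intro n hn C m hm φ hφ
  obtain ⟨m1, hm1, hver⟩ := exists_verOK_cone C hφ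
  have hv := hver m1 dvd_rfl hm1
  have hfin : ∀ k, FiniteDimensional ℂ (C.A k) := hv.fin
  exact gen_of_rest hG hn ⟨φ, hφ⟩ hv (h n hn C ⟨φ, hφ⟩ m1 hv) m hm

end Vale.Agent.P271.Main
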