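import Vale.Agent.P271.Chain.Metric
import Vale.Agent.P271.Filt.OfBasis
import Vale.Agent.P271.Sch.Hub
import Vale.Agent.P271.Deg.Main

/-!
# P271 / Main / Defs : the interface between the blocks and the top of the proof (helper684)

`C` is a graded cone, `z` a point of the cone different from the vertex, `m1 ≥ 1` the Veronese index
(`A_{m1 t}` is generated by `A_{m1}`), `T` the level: all filtrations live on `A_{m1 T}`.

`Blocks C z m1` collects the outputs of the blocks; `Main/Stage.lean` deduces `TChain`, and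
`Main/Top.lean` deduces the theorem.
-/

namespace Vale.Agent.P271.Main

open Module Filt Filt.Wt Chain Sch Drop Deg

variable {n : ℕ} (C : GCone n) (z : C.Pt) (m1 : ℕ)

/-- The Veronese grading. -/
abbrev VA (t : ℕ) : Submodule ℂ C.R := C.A (m1 * t)

/-- The sections of level `T` that vanish at `z`. -/
def Hz (T : ℕ) : Submodule ℂ (VA C m1 T) :=
  LinearMap.ker (z.toLinearMap.comp (VA C m1 T).subtype)

variable {C} in
/-- The trace of an ideal on the level `T`. -/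
def tr (P : Ideal C.R) (T : ℕ) : Submodule ℂ (VA C m1 T) :=
  (P.restrictScalars ℂ).comap (VA C m1 T).subtype

variable {C} in
/-- The homogeneous prime ideal of the orbit of `z`. -/
def pz : Ideal C.R := ((RingHom.ker z).homogeneousCore C.A).toIdeal

variable {C} in
/-- Homogeneous prime ideals whose zero set contains `z`. -/
structure HPrime (P : Ideal C.R) : Prop where
  prime : P.IsPrime
  hom : P.IsHomogeneous C.A
  le : P ≤ pz z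

/-- `∑_{k ≥ 1} dim {s ∈ A_{m1 T} : ord_z s ≥ k}`, the total weight of the filtration by the order
of vanishing at `z`. -/
noncomputable def ordsum (T : ℕ) : ℕ :=
  ∑ᶠ k : ℕ, finrank ℂ (((RingHom.ker z ^ (k + 1)).restrictScalars ℂ ⊓ VA C m1 T : Submodule ℂ C.R))

section slope

variable {V : Type*} [AddCommGroup V] [Module ℂ V] [FiniteDimensional ℂ V]

/-- `F` is saturated for the slope functional `a`. -/
def Satd (H : Submodule ℂ V) (a : Wt ℂ V → ℝ) (F : Wt ℂ V) : Prop :=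
  ∀ G : Wt ℂ V, Dom H G → (∀ x, x ≠ 0 → F.w x ≤ G.w x) → a G ≤ a F → ∀ x, x ≠ 0 → G.w x = F.w x

/-- For every adapted basis there are exponents `κ` in the closed integrability polytope on the
supporting hyperplane of `F`, of total mass at most `B`. -/
def KSt (H : Submodule ℂ V) (a : Wt ℂ V → ℝ) (F : Wt ℂ V) (B : ℝ) : Prop :=
  ∀ (ι : Type) [Fintype ι] (b : Basis ι ℂ V), F.Adapted b → ∃ κ : ι → ℝ, (∀ i, 0 ≤ κ i) ∧
    ∑ i, κ i * F.w (b i) = a F ∧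
    (∀ lam : ι → ℝ, (∀ i, 0 ≤ lam i) → Dom H (ofBasis b lam) →
      ∑ i, κ i * lam i ≤ a (ofBasis b lam)) ∧ ∑ i, κ i ≤ B

/-- The first order inequality at stage `k`, as it is used by (K3). -/
def K3Ineq (H : Submodule ℂ V) (a : Wt ℂ V → ℝ) (ε : ℝ) (k : ℕ) (P : ℕ → Submodule ℂ V)
    (γ : ℕ → ℝ) (F : Wt ℂ V) : Prop :=
  ∀ (G : Wt ℂ V) (α d δ : ℝ), 0 ≤ α → 0 ≤ δ → Dom H G → a G ≤ α * a F + d →
    dst G (scale α F) ≤ δ →
    ∑ j ∈ Finset.range (k + 1), γ j * (G.TQ (P j) - α * F.TQ (P j)) ≤ d + ε * δ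

end slope

/-- The outputs of the blocks, for a fixed cone, point, and Veronese index. -/
structure Blocks [∀ k, FiniteDimensional ℂ (C.A k)] where
  /-- the slope functional (threshold at `z`) on the filtrations of `A_{m1 T}` -/
  a : ∀ T, Wt ℂ (VA C m1 T) → ℝ
  /-- `P` is the centre of a (Zorn) valuation that computes `a F` -/
  IsCen : ∀ T, Wt ℂ (VA C m1 T) → Ideal C.R → Prop
  /-- states of the chain -/
  Good : ∀ T, ℝ → ℕ → (ℕ → Submodule ℂ (VA C m1 T)) → (ℕ → ℝ) → Wt ℂ (VA C m1 T) → Prop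
  -- geometry of the primes
  bot_ne : (⊥ : Ideal C.R) ≠ pz z
  /-- [HILBI, VER, DEG] -/
  pd : ∀ P : Ideal C.R, HPrime z P → P ≠ pz z →
    ∃ d ℓ : ℕ, 1 ≤ d ∧ 1 ≤ ℓ ∧ TwoSided d (ℓ * m1 ^ d) (hilb (VA C m1) P)
  /-- the exponent of the zero ideal is `n` -/
  pd_bot : ∀ d D, 1 ≤ D → TwoSided d D (hilb (VA C m1) (⊥ : Ideal C.R)) → d = n
  /-- [DEG] the exponent drops -/
  pd_lt : ∀ P Q : Ideal C.R, HPrime z P → HPrime z Q → P < Q → Q ≠ pz z → ∀ d D e E, 1 ≤ D →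
    1 ≤ E → TwoSided d D (hilb (VA C m1) P) → TwoSided e E (hilb (VA C m1) Q) → e < d
  /-- [CUT] -/
  incl : ∀ D₀ : ℕ, ∃ T₀, ∀ T ≥ T₀, ∀ P Q : Ideal C.R, HPrime z P → HPrime z Q →
    (P = pz z ∨ ∃ d D, 1 ≤ D ∧ D ≤ D₀ ∧ TwoSided d D (hilb (VA C m1) P)) →
    tr m1 P T ≤ tr m1 Q T → P ≤ Q
  -- chain
  good_init : ∀ T ≥ 1, ∀ ε > 0, ∃ γ, Good T ε 0 (fun _ => ⊥) γ zeroF
  good_step : ∀ T ε k P γ F, Good T ε k P γ F → (∃ x ∈ Hz C z m1 T, x ∉ P k) →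
    ∃ P' γ' F', (∀ j < k, γ' j = γ j) ∧ (∀ j ≤ k, P' j = P j) ∧
      K3Ineq (Hz C z m1 T) (a T) ε k P γ' F ∧ Good T ε (k + 1) P' γ' F'
  good_dom : ∀ T ε k P γ F, Good T ε k P γ F → Dom (Hz C z m1 T) F
  good_sat : ∀ T ε k P γ F, Good T ε k P γ F → Satd (Hz C z m1 T) (a T) F
  good_subGt : ∀ T ε k P γ F, Good T ε k P γ F → F.subGt 0 = P k
  good_step' : ∀ T ε k P γ F, Good T ε k P γ F → ∀ j ≤ k, F.Step (P j)
  good_lt : ∀ T ε k P γ F, Good T ε k P γ F → ∀ j < k, P j < P (j + 1)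
  good_nonneg : ∀ T ε k P γ F, Good T ε k P γ F → ∀ j < k, 0 ≤ γ j
  good_kst : ∀ T ε k P γ F, Good T ε k P γ F → KSt (Hz C z m1 T) (a T) F
    (∑ j ∈ Finset.range k, γ j * (finrank ℂ (VA C m1 T) - finrank ℂ (P j)) + ε)
  -- valuations
  /-- [ZORN] -/
  cen : ∀ T ≥ 1, ∀ F, Dom (Hz C z m1 T) F → Satd (Hz C z m1 T) (a T) F → ∃ P, IsCen T F P
  cen_zero : ∀ T ≥ 1, IsCen T zeroF ⊥
  cen_hprime : ∀ T F P, IsCen T F P → HPrime z P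
  cen_subGt : ∀ T F P, IsCen T F P → F.subGt 0 = tr m1 P T
  /-- [BDEG] -/
  bdeg : ∀ B : ℝ, ∃ D₀ : ℕ, ∀ T ≥ 1, ∀ F P, Dom (Hz C z m1 T) F → IsCen T F P → P ≠ pz z →
    KSt (Hz C z m1 T) (a T) F (B / (m1 * T)) →
    ∀ d D, 1 ≤ D → TwoSided d D (hilb (VA C m1) P) → D ≤ D₀
  /-- [K3T, GEN, K3LOW, COUNT] -/
  k3 : ∀ D₀ : ℕ, ∀ ε : ℝ, 0 < ε → ε < 1 → ∃ T₀, ∀ T ≥ T₀, ∃ δ : ℝ, 0 ≤ δ ∧
    ∀ F P, Dom (Hz C z m1 T) F → Satd (Hz C z m1 T) (a T) F → IsCen T F P → P ≠ pz z →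
    ∀ d D, 1 ≤ d → 1 ≤ D → D ≤ D₀ → TwoSided d D (hilb (VA C m1) P) →
    ∀ (k : ℕ) (p : ℕ → Ideal C.R) (dj Dj : ℕ → ℕ), (∀ j ≤ k, HPrime z (p j) ∧ p j ≤ P ∧
      F.Step (tr m1 (p j) T) ∧ 1 ≤ Dj j ∧ Dj j ≤ D₀ ∧
      TwoSided (dj j) (Dj j) (hilb (VA C m1) (p j))) →
    ∃ (α : ℝ) (G : Wt ℂ (VA C m1 T)), 0 ≤ α ∧ Dom (Hz C z m1 T) G ∧ a T G ≤ α * a T F + d ∧
      dst G (scale α F) ≤ δ ∧ ∀ j ≤ k, (1 - ε) * ((d : ℝ) / (dj j + 1)) *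
        (D : ℝ) ^ ((1 : ℝ) / d) * (T * hilb (VA C m1) (p j) T) ≤
        G.TQ (tr m1 (p j) T) - α * F.TQ (tr m1 (p j) T)
  /-- the filtration by the order of vanishing at `z` -/
  ord : ∀ T ≥ 1, ∃ (E : Wt ℂ (VA C m1 T)) (δ : ℝ), Dom (Hz C z m1 T) E ∧ a T E ≤ n ∧
    0 ≤ δ ∧ dst E zeroF ≤ δ ∧ E.T = ordsum C z m1 T
  /-- [END] -/
  fin : ∀ T ≥ 1, ∀ F B, Dom (Hz C z m1 T) F → IsCen T F (pz z) →
    KSt (Hz C z m1 T) (a T) F (B / (m1 * T)) → ∀ M : ℕ, B < M → C.Gen M z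

/-- The output of the chain at level `T`, up to an error `ε`. -/
def TChain (T : ℕ) (ε : ℝ) : Prop :=
  ∃ (r : ℕ) (c : ℕ → ℝ) (dd : ℕ → ℕ) (l : ℕ → ℝ), 0 < r ∧ (∀ j < r, 0 ≤ c j) ∧ dd 0 = n ∧
    (∀ j, 0 < j → j < r → dd j < n) ∧ (∀ j < r, 1 ≤ dd j) ∧ (∀ k < r, 1 ≤ l k) ∧
    (∀ ℓ : ℕ, TwoSided n (ℓ * m1 ^ n) (hilb (VA C m1) (⊥ : Ideal C.R)) →
      l 0 = (ℓ : ℝ) ^ ((1 : ℝ) / n)) ∧
    (∀ k < r, ∑ j ∈ Finset.range (k + 1), c j / (dd j + 1) ≤ (1 + ε) / l k) ∧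
    (∀ M : ℕ, ∑ j ∈ Finset.range r, c j + ε < M → C.Gen M z) ∧
    c 0 * ordsum C z m1 T ≤ (n + ε) * (m1 * T * finrank ℂ (VA C m1 T))

end Vale.Agent.P271.Main
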