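import Vale.Agent.P271.H989.Np1
import Vale.Agent.P271.H70.TrHilb
import Vale.Agent.P271.Hilb.GInt
import Vale.Agent.P271.Ver.Cone
import Vale.Agent.P271.Main.Defs

/-!
# P271 / Main / Dim : the growth of the coordinate ring of a cone (helper684)

`exponent_bot`: the Hilbert function of the coordinate ring has exponent `n`.
`exists_ell`: `dim A_M / M ^ n → ell / n!` with an integer `ell ≥ 1`.
-/

set_option linter.all false

namespace Vale.Agent.P271.Main

open Module Sch Drop Deg Filter Topology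

variable {n : ℕ} {C : GCone n} {z : C.Pt}

/-- The transcendence degree of the coordinate ring. -/
theorem trdeg_cone (hz : GCone.NV z) : Algebra.trdeg ℂ (C.R ⧸ (⊥ : Ideal C.R)) = ((n + 1 : ℕ) : Cardinal) := by
  obtain ⟨N0, hN0, h⟩ := H989.exists_noether C z hz
  obtain ⟨y, -, -, hfin, hinj, -⟩ := h N0 hN0 dvd_rfl
  let e : C.R ≃ₐ[ℂ] (C.R ⧸ (⊥ : Ideal C.R)) := (AlgEquiv.quotientBot ℂ C.R).symm
  have hprime : (⊥ : Ideal C.R).IsPrime := Ideal.isPrime_bot
  refine H70.trdeg_of_noether (fun i => e (y i)) ?_ ?_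
  · have hind : AlgebraicIndependent ℂ y := hinj
    exact hind.map' (f := (e : C.R →ₐ[ℂ] (C.R ⧸ (⊥ : Ideal C.R)))) e.injective
  · intro x
    obtain ⟨x, rfl⟩ := e.surjective x
    have h1 := hfin.to_isIntegral x
    obtain ⟨p, hp, hp0⟩ := h1
    have hrange : ∀ q : MvPolynomial (Fin (n + 1)) ℂ,
        ((e : C.R →ₐ[ℂ] (C.R ⧸ (⊥ : Ideal C.R))).comp (MvPolynomial.aeval y)) q ∈
          Algebra.adjoin ℂ (Set.range fun i => e (y i)) := by
      intro q
      have h2 : ((e : C.R →ₐ[ℂ] (C.R ⧸ (⊥ : Ideal C.R))).comp (MvPolynomial.aeval y)) q =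
          MvPolynomial.aeval (fun i => e (y i)) q := by
        rw [MvPolynomial.comp_aeval]
        rfl
      rw [h2, Algebra.adjoin_range_eq_range_aeval]
      exact ⟨q, rfl⟩
    let g : MvPolynomial (Fin (n + 1)) ℂ →+* Algebra.adjoin ℂ (Set.range fun i => e (y i)) :=
      (((e : C.R →ₐ[ℂ] (C.R ⧸ (⊥ : Ideal C.R))).comp (MvPolynomial.aeval y)).codRestrict
        (Algebra.adjoin ℂ (Set.range fun i => e (y i))) hrange).toRingHom
    refine ⟨p.map g, hp.map g, ?_⟩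
    rw [Polynomial.eval₂_map]
    have h3 : (algebraMap (Algebra.adjoin ℂ (Set.range fun i => e (y i))) _).comp g =
        (e : C.R →+* (C.R ⧸ (⊥ : Ideal C.R))).comp (MvPolynomial.aeval y : MvPolynomial (Fin (n + 1)) ℂ →ₐ[ℂ] C.R).toRingHom :=
      RingHom.ext fun q => rfl
    rw [h3]
    have h4 := Polynomial.hom_eval₂ p (MvPolynomial.aeval y : MvPolynomial (Fin (n + 1)) ℂ →ₐ[ℂ] C.R).toRingHom
      (e : C.R →+* (C.R ⧸ (⊥ : Ideal C.R))) x
    rw [hp0, map_zero] at h4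
    exact h4.symm

theorem NV.rel_bot (hz : GCone.NV z) : ∃ j > 0, ∃ s ∈ C.A j, s ∉ (⊥ : Ideal C.R) := by
  obtain ⟨k, hk, s, hs, hs0⟩ := hz
  exact ⟨k, hk, s, hs, fun h => hs0 (by rw [(Submodule.mem_bot _).1 h, map_zero])⟩

theorem exponent_bot (hz : GCone.NV z) {m1 d D : ℕ} (hm1 : 1 ≤ m1) (hD : 1 ≤ D)
    (hTS : TwoSided d D (hilb (VA C m1) (⊥ : Ideal C.R))) : d = n := by
  have := C.finiteType
  have hprime : (⊥ : Ideal C.R).IsPrime := Ideal.isPrime_bot
  have h1 := H70.trdeg_of_twoSided C.A C.zero (P := ⊥) (Ideal.IsHomogeneous.bot _)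
    (NV.rel_bot hz) hm1 hD hTS
  rw [trdeg_cone hz] at h1
  have : n + 1 = d + 1 := by exact_mod_cast h1
  omega

/-- `dim A_M / M ^ n → ell / n!`. -/
theorem exists_ell (hz : GCone.NV z) : ∃ ell : ℕ, 1 ≤ ell ∧
    Tendsto (fun M : ℕ => (hilb C.A (⊥ : Ideal C.R) M : ℝ) / (M : ℝ) ^ n) atTop
      (𝓝 ((ell : ℝ) / n.factorial)) := by
  have := C.finiteType
  have hprime : (⊥ : Ideal C.R).IsPrime := Ideal.isPrime_bot
  obtain ⟨m1, hm1, hver⟩ := Ver.exists_verOK_cone C hz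
  have hv := hver m1 dvd_rfl hm1
  obtain ⟨d, y, D, -, -, -, hD, hTS⟩ := Ver.prime_data hv hprime (Ideal.IsHomogeneous.bot _)
    (H70.not_subset_of_verOK C.A hv (NV.rel_bot hz))
  obtain ⟨ell, hell, -, hlim⟩ := Hilb.veronese_degree C.A C.free C.zero (NV.rel_bot hz) hm1 hD hTS
  have hd : d = n := exponent_bot hz hm1 hD hTS
  subst hd
  exact ⟨ell, hell, hlim⟩

end Vale.Agent.P271.Main
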