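import Vale.Agent.P271.Main.CSys
import Vale.Agent.P271.H242.CminES
import Vale.Agent.P271.H58.Geo

/-!
# P271 / Main / FieldsA : the fields `hz_ne` and `low` of `FreeBlocks` (helper684)
-/

set_option linter.all false

namespace Vale.Agent.P271.Main

open Module Filt Filt.Wt Chain Sch Inst Zorn Exp H43 H84 Drop Deg Ver

variable {n : ℕ} {C : GCone n} {m1 : ℕ} [∀ k, FiniteDimensional ℂ (C.A k)]

theorem hilb_le_finrank (P : Ideal C.R) (T : ℕ) :
    hilb (VA C m1) P T ≤ finrank ℂ (VA C m1 T) :=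
  Submodule.finrank_map_le _ _

theorem two_le_finrank {z : C.Pt} (h : VerOK C.A m1) (hz : GCone.NV z) (hn : 1 ≤ n) {T : ℕ}
    (hT : 1 ≤ T) : 2 ≤ finrank ℂ (VA C m1 T) := by
  obtain ⟨d, ℓ, hℓ, hTS⟩ := H58.pd' h hz (H58.hprime_bot (z := z))
  have hD : 1 ≤ ℓ * m1 ^ d := Nat.mul_pos hℓ (pow_pos h.pos _)
  have hdn := H58.pd_bot h hz hD hTS
  have h1 := H58.one_le_hilb hD (by omega) hTS T
  have h2 := hilb_le_finrank (m1 := m1) (⊥ : Ideal C.R) T
  omega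

/-- Field `hz_ne`. -/
theorem hz_ne {z : C.Pt} (h : VerOK C.A m1) (hz : GCone.NV z) (hn : 1 ≤ n) :
    ∃ T₀ : ℕ, ∀ T ≥ T₀, Hz C z m1 T ≠ ⊥ := by
  refine ⟨1, fun T hT hbot => ?_⟩
  have h1 := two_le_finrank h hz hn hT
  have h2 := LinearMap.finrank_range_add_finrank_ker (z.toLinearMap.comp (VA C m1 T).subtype)
  have h3 : finrank ℂ (LinearMap.range (z.toLinearMap.comp (VA C m1 T).subtype)) ≤ 1 := by
    refine (Submodule.finrank_le _).trans ?_
    simp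
  have h4 : finrank ℂ (LinearMap.ker (z.toLinearMap.comp (VA C m1 T).subtype)) = 0 := by
    have : LinearMap.ker (z.toLinearMap.comp (VA C m1 T).subtype) = ⊥ := hbot
    rw [this]
    exact finrank_bot ℂ _
  omega

namespace CSys

variable (S : CSys C) (z : NVPt C)

theorem vsl_of_dom {T : ℕ} {G : Wt ℂ (VA C m1 T)} (hG : Dom (Hz C z.1 m1 T) G) :
    VSl (S.E.P z) (VA C m1 T).subtype G.w (S.a z m1 T G) := by
  have hG' : Dom (S.E.Hz z (VA C m1 T)) G := by rw [S.Hz_eq]; exact hG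
  exact (S.E.a_le_iff HmOf_of_mem hG').1 le_rfl

/-- `t * G.w x ≤ a G` if `t [x]` is an exponent at `z`. -/
theorem mul_w_le {T : ℕ} {G : Wt ℂ (VA C m1 T)} (hG : Dom (Hz C z.1 m1 T) G) {x : VA C m1 T}
    {t : ℝ} (ht : 0 ≤ t) (hx : Finsupp.single (x : C.R) t ∈ S.E.P z) :
    t * G.w x ≤ S.a z m1 T G := by
  have h := S.vsl_of_dom z hG (Finsupp.single x t) (single_nonneg' ht) (by
    rw [Finsupp.mapDomain_single]
    exact hx)
  rwa [dot_single] at h

/-- Field `low`. -/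
theorem low (hm1 : 1 ≤ m1) : ∃ c : ℝ, 0 < c ∧ ∃ T₀ : ℕ, ∀ T ≥ T₀, ∀ G : Wt ℂ (VA C m1 T),
    Dom (Hz C z.1 m1 T) G → ∀ x, x ≠ 0 → G.w x ≤ c * (m1 * T) * S.a z m1 T G := by
  obtain ⟨D, hD, h⟩ := H242.cmin_extP C z.2
  refine ⟨2 * D, by positivity, 1, fun T hT G hG x hx => ?_⟩
  have hDR : (0 : ℝ) < D := by exact_mod_cast hD
  have hmR : (0 : ℝ) < m1 := by exact_mod_cast hm1
  have hTR : (0 : ℝ) < T := by exact_mod_cast hT
  set t : ℝ := 1 / (2 * D * (m1 * T)) with ht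
  have ht0 : 0 < t := by positivity
  have h1 : t * (D * ((m1 * T : ℕ) : ℝ)) < 1 := by
    rw [ht]
    push_cast
    rw [div_mul_eq_mul_div, one_mul, div_lt_one (by positivity)]
    have : 0 < (D : ℝ) * (m1 * T) := by positivity
    linarith
  have h2 := h (m1 * T) (x : C.R) x.2 (fun h0 => hx (Subtype.ext h0)) t ht0.le h1
  rw [← S.P_ES z, ← S.P_eq z] at h2
  have h3 := S.mul_w_le z hG ht0.le h2
  rw [ht, div_mul_eq_mul_div, one_mul, div_le_iff₀ (by positivity)] at h3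
  linarith

end CSys

end Vale.Agent.P271.Main
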