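import Vale.Agent.P271.Main.FreeInst
import Vale.Agent.P271.Main.Dim
import Vale.Agent.P271.H27.ConcStat
import Vale.Agent.P271.H741.End
import Vale.Agent.P271.H987.GlobGenFinal
import Vale.Agent.P271.H507.K3WStat
import Vale.Agent.P271.Uni.EqStat

/-!
# P271 / Main / Hub : the hub theorem (helper684)
-/

set_option linter.all false

namespace Vale.Agent.P271.Main

open Module Filt Filt.Wt Chain Sch Inst Zorn Exp H43 H84 Drop Deg Ver Filter Topology

variable {n : ℕ} {C : GCone n} [∀ k, FiniteDimensional ℂ (C.A k)]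

omit [∀ k, FiniteDimensional ℂ (C.A k)] in
theorem tendsto_of_twoSided (z : NVPt C) {m1 ell : ℕ} (hm1 : 1 ≤ m1) (hell : 1 ≤ ell)
    (hTS : TwoSided n (ell * m1 ^ n) (hilb (VA C m1) (⊥ : Ideal C.R))) :
    Tendsto (fun M : ℕ => (hilb C.A (⊥ : Ideal C.R) M : ℝ) / (M : ℝ) ^ n) atTop
      (𝓝 ((ell : ℝ) / n.factorial)) := by
  have := C.finiteType
  have hprime : (⊥ : Ideal C.R).IsPrime := Ideal.isPrime_bot
  have hmn : 0 < m1 ^ n := pow_pos hm1 n
  obtain ⟨ℓ, hℓ, hD, hlim⟩ := Hilb.veronese_degree C.A C.free C.zero (NV.rel_bot z.2) hm1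
    (Nat.mul_pos hell hmn) hTS
  have : ell = ℓ := Nat.eq_of_mul_eq_mul_right hmn hD
  rw [this]
  exact hlim

/-- Field `uni`. -/
theorem uniStat (z : NVPt C) (m1 : ℕ) : UniStat (csys C) z m1 := Uni.uni (csys C) z m1

/-- Field `hos`. -/
theorem osStat (hn : 1 ≤ n) (z : NVPt C) {m1 ell : ℕ} (hm1 : 1 ≤ m1) (hell : 1 ≤ ell)
    (hTS : TwoSided n (ell * m1 ^ n) (hilb (VA C m1) (⊥ : Ideal C.R))) : OsStat z m1 ell :=
  Uni.hos z.2 hn hell hm1 (tendsto_of_twoSided z hm1 hell hTS)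

theorem rest_of (hn : 1 ≤ n) (z : NVPt C) {m1 : ℕ} (hv : VerOK C.A m1)
    (heq : ∀ ell : ℕ, 1 ≤ ell → TwoSided n (ell * m1 ^ n) (hilb (VA C m1) (⊥ : Ideal C.R)) →
      EqStat z m1 ell) : Rest z m1 where
  conc := H27.concStat_csys hn z hv
  uni := uniStat z m1
  os := fun _ hell hTS => osStat hn z hv.pos hell hTS
  eq := heq
  k3w := H507.k3wStat H987.globGen hn (csys C) z hv

omit [∀ k, FiniteDimensional ℂ (C.A k)] in
/-- **The hub theorem**: on every graded cone of dimension `n + 1`, `K + m L` is generated at every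
point different from the vertex, for all `m ≥ n + 1`. -/
theorem hubFujita : HubFujita :=
  hubFujita_of H741.globEnd fun _ hn _ _ z _ hv =>
    rest_of hn z hv fun _ _ hTS => Uni.eqStat H741.globEnd hn z hv.pos hTS

end Vale.Agent.P271.Main
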