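import Vale.Agent.P271.Main.Defs

/-!
# P271 / Main / Stage : the induction over the stages of the chain (helper684)
-/

set_option linter.all false

namespace Vale.Agent.P271.Main

open Module Filt Filt.Wt Chain Sch Drop Deg Finset

variable {n : ℕ} {C : GCone n} {z : C.Pt} {m1 : ℕ}

theorem mem_tr {P : Ideal C.R} {T : ℕ} {x : VA C m1 T} : x ∈ tr m1 P T ↔ (x : C.R) ∈ P := Iff.rfl

theorem mem_Hz {T : ℕ} {x : VA C m1 T} : x ∈ Hz C z m1 T ↔ z (x : C.R) = 0 := by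
  unfold Hz
  rw [LinearMap.mem_ker]
  rfl

theorem mem_pz_of_hom {k : ℕ} {x : C.R} (hx : x ∈ C.A k) : x ∈ pz z ↔ z x = 0 := by
  constructor
  · intro h
    exact (Ideal.toIdeal_homogeneousCore_le C.A (RingHom.ker z)) h
  · intro h
    exact Ideal.mem_homogeneousCore_of_homogeneous_of_mem ⟨k, hx⟩ h

theorem Hz_eq (T : ℕ) : Hz C z m1 T = tr m1 (pz z) T := by
  ext x
  rw [mem_Hz, mem_tr, mem_pz_of_hom x.2]

theorem hprime_pz : HPrime z (pz z) := by
  refine ⟨?_, ?_, le_rfl⟩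
  · have : (RingHom.ker z).IsPrime := RingHom.ker_isPrime z
    exact this.homogeneousCore
  · exact ((RingHom.ker z).homogeneousCore C.A).isHomogeneous

theorem hprime_bot : HPrime z (⊥ : Ideal C.R) :=
  ⟨Ideal.isPrime_bot, Ideal.IsHomogeneous.bot _, bot_le⟩

variable [∀ k, FiniteDimensional ℂ (C.A k)]

theorem hilb_eq (P : Ideal C.R) (T : ℕ) :
    (hilb (VA C m1) P T : ℝ) = finrank ℂ (VA C m1 T) - finrank ℂ (tr m1 P T) := by
  let f : VA C m1 T →ₗ[ℂ] (C.R ⧸ P) := (Ideal.Quotient.mkₐ ℂ P).toLinearMap.comp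
    (VA C m1 T).subtype
  have h1 := f.finrank_range_add_finrank_ker
  have h2 : LinearMap.range f = (VA C m1 T).map (Ideal.Quotient.mkₐ ℂ P).toLinearMap := by
    rw [LinearMap.range_comp, Submodule.range_subtype]
  have h3 : LinearMap.ker f = tr m1 P T := by
    ext x
    rw [LinearMap.mem_ker, mem_tr]
    exact Ideal.Quotient.eq_zero_iff_mem
  rw [h2, h3] at h1
  have h4 : hilb (VA C m1) P T =
      finrank ℂ ((VA C m1 T).map (Ideal.Quotient.mkₐ ℂ P).toLinearMap) := rfl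
  rw [h4]
  have h5 : ((finrank ℂ ((VA C m1 T).map (Ideal.Quotient.mkₐ ℂ P).toLinearMap) +
    finrank ℂ (tr m1 P T) : ℕ) : ℝ) = (finrank ℂ (VA C m1 T) : ℕ) := congrArg _ h1
  push_cast at h5
  linarith

/-- A stage of the induction. -/
structure Stg (B : Blocks C z m1) (T : ℕ) (ε εs : ℝ) (D₀ : ℕ) (k : ℕ) where
  P : ℕ → Submodule ℂ (VA C m1 T)
  γ : ℕ → ℝ
  F : Wt ℂ (VA C m1 T)
  p : ℕ → Ideal C.R
  dd : ℕ → ℕ
  ll : ℕ → ℕ
  good : B.Good T εs k P γ F
  cen : B.IsCen T F (p k)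
  hp : ∀ j ≤ k, HPrime z (p j)
  tr_eq : ∀ j ≤ k, P j = tr m1 (p j) T
  p0 : p 0 = ⊥
  lt : ∀ j < k, p j < p (j + 1)
  ne : ∀ j < k, p j ≠ pz z
  dim : ∀ j < k, 1 ≤ dd j ∧ 1 ≤ ll j ∧
    TwoSided (dd j) (ll j * m1 ^ dd j) (hilb (VA C m1) (p j)) ∧ ll j * m1 ^ dd j ≤ D₀
  ineq : ∀ i < k, ∑ j ∈ range (i + 1), γ j * (m1 * T * hilb (VA C m1) (p j) T) / (dd j + 1) ≤
    (1 + ε) / (ll i : ℝ) ^ ((1 : ℝ) / dd i)
  ddn : ∀ j < k, dd j + j ≤ n
  dd0 : 0 < k → dd 0 = n
  ord : 0 < k → γ 0 * (m1 * T * hilb (VA C m1) (p 0) T) * ordsum C z m1 T ≤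
    (n + ε) * (m1 * T * finrank ℂ (VA C m1 T))

/-- The parameters of the induction. -/
structure Par (B : Blocks C z m1) (T : ℕ) (ε εs : ℝ) (D₀ : ℕ) : Prop where
  hT : 1 ≤ T
  hm1 : 1 ≤ m1
  hε : 0 < ε
  hε1 : ε ≤ 1
  hεs : 0 < εs
  hmT : m1 * T * εs ≤ ε
  incl : ∀ P Q : Ideal C.R, HPrime z P → HPrime z Q →
    (P = pz z ∨ ∃ d D, 1 ≤ D ∧ D ≤ D₀ ∧ TwoSided d D (hilb (VA C m1) P)) →
    tr m1 P T ≤ tr m1 Q T → P ≤ Q
  bdeg : ∀ F P, Dom (Hz C z m1 T) F → B.IsCen T F P → P ≠ pz z →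
    KSt (Hz C z m1 T) (B.a T) F ((2 * (n + 1) + 1) / (m1 * T)) →
    ∀ d D, 1 ≤ D → TwoSided d D (hilb (VA C m1) P) → D ≤ D₀
  k3 : ∀ F P, Dom (Hz C z m1 T) F → Satd (Hz C z m1 T) (B.a T) F → B.IsCen T F P → P ≠ pz z →
    ∀ d D, 1 ≤ d → 1 ≤ D → D ≤ D₀ → TwoSided d D (hilb (VA C m1) P) →
    ∀ (k : ℕ) (p : ℕ → Ideal C.R) (dj Dj : ℕ → ℕ), (∀ j ≤ k, HPrime z (p j) ∧ p j ≤ P ∧
      F.Step (tr m1 (p j) T) ∧ 1 ≤ Dj j ∧ Dj j ≤ D₀ ∧
      TwoSided (dj j) (Dj j) (hilb (VA C m1) (p j))) →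
    ∀ γ : ℕ → ℝ, K3Ineq (Hz C z m1 T) (B.a T) εs k (fun j => tr m1 (p j) T) γ F →
      (∀ j ≤ k, 0 ≤ γ j) →
      ∑ j ∈ range (k + 1), γ j * (((d : ℝ) / (dj j + 1)) *
        (D : ℝ) ^ ((1 : ℝ) / d) * (T * hilb (VA C m1) (p j) T)) ≤ d * (1 + ε)
  ord : ∀ F (P : ℕ → Submodule ℂ (VA C m1 T)) (γ : ℕ → ℝ), P 0 = ⊥ →
    K3Ineq (Hz C z m1 T) (B.a T) εs 0 P γ F → γ 0 * ordsum C z m1 T ≤ n + ε

variable {B : Blocks C z m1} {T : ℕ} {ε εs : ℝ} {D₀ : ℕ}

theorem exists_par (B : Blocks C z m1) (hm1 : 1 ≤ m1) {ε : ℝ} (hε : 0 < ε) (hε1 : ε ≤ 1) :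
    ∃ D₀ T₀ : ℕ, ∀ T ≥ T₀, ∃ εs, Par B T ε εs D₀ := by
  obtain ⟨D₀, hD₀⟩ := B.bdeg (2 * (n + 1) + 1)
  obtain ⟨T₁, hT₁⟩ := B.incl D₀
  obtain ⟨T₂, hT₂⟩ := B.k3 D₀ (ε / 4) (by linarith) (by linarith)
  refine ⟨D₀, max 1 (max T₁ T₂), fun T hT => ?_⟩
  have h1 : 1 ≤ T := (le_max_left _ _).trans hT
  have h2 : T₁ ≤ T := ((le_max_left _ _).trans (le_max_right _ _)).trans hT
  have h3 : T₂ ≤ T := ((le_max_right _ _).trans (le_max_right _ _)).trans hT
  obtain ⟨δ, hδ, hk3⟩ := hT₂ T h3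
  obtain ⟨E, δ', hE, haE, hδ', hdE, hET⟩ := B.ord T h1
  have hm1R : (1 : ℝ) ≤ m1 := by exact_mod_cast hm1
  have hTR : (1 : ℝ) ≤ T := by exact_mod_cast h1
  set εs : ℝ := ε / (m1 * T + 4 * δ + δ' + 1) with hεs
  have hden : 0 < m1 * T + 4 * δ + δ' + 1 := by positivity
  have hεs0 : 0 < εs := by positivity
  have key : εs * (m1 * T + 4 * δ + δ' + 1) = ε := by
    rw [hεs]; field_simp
  refine ⟨εs, h1, hm1, hε, hε1, hεs0, ?_, hT₁ T h2, fun F P => hD₀ T h1 F P, ?_, ?_⟩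
  · have : 0 ≤ εs * (4 * δ + δ' + 1) := by positivity
    nlinarith
  · intro F P hF hS hC hP d D hd hD hDD hTS k p dj Dj hpj γ hK hγ
    obtain ⟨α, G, hα, hG, haG, hdG, hlow⟩ := hk3 F P hF hS hC hP d D hd hD hDD hTS k p dj Dj hpj
    have h4 := hK G α d δ hα hδ hG haG hdG
    have hdR : (1 : ℝ) ≤ d := by exact_mod_cast hd
    have h5 : (1 - ε / 4) * ∑ j ∈ range (k + 1), γ j * (((d : ℝ) / (dj j + 1)) *
        (D : ℝ) ^ ((1 : ℝ) / d) * (T * hilb (VA C m1) (p j) T)) ≤ d + εs * δ := by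
      refine le_trans ?_ h4
      rw [Finset.mul_sum]
      refine Finset.sum_le_sum fun j hj => ?_
      have hj' : j ≤ k := by have := Finset.mem_range.1 hj; omega
      refine le_trans (le_of_eq ?_) (mul_le_mul_of_nonneg_left (hlow j hj') (hγ j hj'))
      ring
    have h6 : 4 * (εs * δ) ≤ ε := by
      have : 0 ≤ εs * (m1 * T + δ' + 1) := by positivity
      nlinarith
    have h7 : (d : ℝ) + εs * δ ≤ (1 - ε / 4) * (d * (1 + ε)) := by
      have h9 : 1 + ε / 2 ≤ (1 - ε / 4) * (1 + ε) := by nlinarith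
      have h10 : (d : ℝ) * (1 + ε / 2) ≤ d * ((1 - ε / 4) * (1 + ε)) :=
        mul_le_mul_of_nonneg_left h9 (by linarith)
      have h11 : ε / 2 ≤ d * (ε / 2) := by nlinarith
      nlinarith
    have h8 : 0 < 1 - ε / 4 := by linarith
    exact le_of_mul_le_mul_left (h5.trans h7) h8
  · intro F P γ hP0 hK
    have h4 := hK E 0 n δ' le_rfl hδ' hE (by rw [zero_mul, zero_add]; exact haE) (by
      refine le_trans (le_of_eq ?_) hdE
      unfold dst
      congr 1
      funext x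
      rw [scale_w le_rfl, zero_mul, zeroF_w])
    rw [zero_add, Finset.sum_range_one, hP0, TQ_bot, zero_mul, sub_zero, hET] at h4
    have h6 : εs * δ' ≤ ε := by
      have : 0 ≤ εs * (m1 * T + 4 * δ + 1) := by positivity
      nlinarith
    linarith

theorem KSt.mono {V : Type*} [AddCommGroup V] [Module ℂ V] [FiniteDimensional ℂ V]
    {H : Submodule ℂ V} {a : Wt ℂ V → ℝ} {F : Wt ℂ V} {b b' : ℝ} (h : KSt H a F b)
    (hb : b ≤ b') : KSt H a F b' := by
  intro ι _ bs hbs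
  obtain ⟨κ, h1, h2, h3, h4⟩ := h ι bs hbs
  exact ⟨κ, h1, h2, h3, h4.trans hb⟩

namespace Stg

variable {k : ℕ} (S : Stg B T ε εs D₀ k)

/-- the coefficients `c_j` -/
noncomputable def c (j : ℕ) : ℝ := S.γ j * (m1 * T * hilb (VA C m1) (S.p j) T)

include S in
theorem c_nonneg {j : ℕ} (hj : j < k) : 0 ≤ S.c j :=
  mul_nonneg (B.good_nonneg _ _ _ _ _ _ S.good j hj) (by positivity)

theorem sum_le (h : Par B T ε εs D₀) : ∑ j ∈ range k, S.c j ≤ 2 * (n + 1) := by
  rcases Nat.eq_zero_or_pos k with rfl | hk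
  · simp; positivity
  · obtain ⟨i, rfl⟩ : ∃ i, k = i + 1 := ⟨k - 1, by omega⟩
    have h1 := S.ineq i (by omega)
    have h2 : (1 : ℝ) ≤ (S.ll i : ℝ) ^ ((1 : ℝ) / S.dd i) :=
      Real.one_le_rpow (by exact_mod_cast (S.dim i (by omega)).2.1) (by positivity)
    have h3 : (1 + ε) / (S.ll i : ℝ) ^ ((1 : ℝ) / S.dd i) ≤ 2 := by
      rw [div_le_iff₀ (by linarith)]
      have := h.hε1
      nlinarith
    have h4 : ∑ j ∈ range (i + 1), S.c j ≤
        (n + 1) * ∑ j ∈ range (i + 1), S.γ j * (m1 * T * hilb (VA C m1) (S.p j) T) /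
          (S.dd j + 1) := by
      rw [Finset.mul_sum]
      refine Finset.sum_le_sum fun j hj => ?_
      have hj' := Finset.mem_range.1 hj
      have h5 := S.ddn j hj'
      have h6 : (S.dd j : ℝ) + 1 ≤ n + 1 := by
        have : (S.dd j : ℝ) ≤ n := by exact_mod_cast (by omega : S.dd j ≤ n)
        linarith
      have h7 := S.c_nonneg hj'
      have h8 : (0 : ℝ) < S.dd j + 1 := by positivity
      change S.c j ≤ (n + 1) * (S.c j / (S.dd j + 1))
      rw [← mul_div_assoc, le_div_iff₀ h8, mul_comm]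
      exact mul_le_mul_of_nonneg_right h6 h7
    have h9 : (0 : ℝ) ≤ n + 1 := by positivity
    calc ∑ j ∈ range (i + 1), S.c j ≤ _ := h4
      _ ≤ (n + 1) * 2 := mul_le_mul_of_nonneg_left (h1.trans h3) h9
      _ = 2 * (n + 1) := by ring

theorem kst (h : Par B T ε εs D₀) : KSt (Hz C z m1 T) (B.a T) S.F
    ((∑ j ∈ range k, S.c j + ε) / (m1 * T)) := by
  refine (B.good_kst _ _ _ _ _ _ S.good).mono ?_
  have hT : (1 : ℝ) ≤ T := by exact_mod_cast h.hT
  have hm : (1 : ℝ) ≤ m1 := by exact_mod_cast h.hm1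
  have hmT : (0 : ℝ) < m1 * T := by positivity
  rw [le_div_iff₀ hmT, add_mul, Finset.sum_mul]
  have h1 := h.hmT
  have h2 : ∑ j ∈ range k, S.γ j * (finrank ℂ (VA C m1 T) - finrank ℂ (S.P j)) * (m1 * T) =
      ∑ j ∈ range k, S.c j := by
    refine Finset.sum_congr rfl fun j hj => ?_
    have hj' := Finset.mem_range.1 hj
    rw [c, hilb_eq, S.tr_eq j (by omega)]
    ring
  rw [h2]
  linarith

theorem p_mono {i j : ℕ} (hij : i ≤ j) (hj : j ≤ k) : S.p i ≤ S.p j := by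
  induction j, hij using Nat.le_induction with
  | base => exact le_rfl
  | succ j hij ih => exact (ih (by omega)).trans (S.lt j (by omega)).le

/-- The step. -/
theorem next (h : Par B T ε εs D₀) (hne : S.p k ≠ pz z) :
    Nonempty (Stg B T ε εs D₀ (k + 1)) := by
  classical
  have hdom := B.good_dom _ _ _ _ _ _ S.good
  have hsat := B.good_sat _ _ _ _ _ _ S.good
  have hTR : (1 : ℝ) ≤ T := by exact_mod_cast h.hT
  have hmR : (1 : ℝ) ≤ m1 := by exact_mod_cast h.hm1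
  have hpk := S.hp k le_rfl
  -- dimension and degree of the last prime
  obtain ⟨d, ℓ, hd, hℓ, hTS⟩ := B.pd (S.p k) hpk hne
  have hD1 : 1 ≤ ℓ * m1 ^ d := Nat.mul_pos hℓ (pow_pos h.hm1 _)
  have hD : ℓ * m1 ^ d ≤ D₀ := by
    refine h.bdeg S.F (S.p k) hdom S.cen hne ((S.kst h).mono ?_) d _ hD1 hTS
    refine div_le_div_of_nonneg_right ?_ (by positivity)
    have := S.sum_le h
    have := h.hε1
    linarith
  -- the extended sequences of dimensions and degrees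
  set dd : ℕ → ℕ := fun j => if j < k then S.dd j else d with hdd
  set ll : ℕ → ℕ := fun j => if j < k then S.ll j else ℓ with hll
  have hddk : dd k = d := by simp [hdd]
  have hllk : ll k = ℓ := by simp [hll]
  have hdim : ∀ j < k + 1, 1 ≤ dd j ∧ 1 ≤ ll j ∧
      TwoSided (dd j) (ll j * m1 ^ dd j) (hilb (VA C m1) (S.p j)) ∧ ll j * m1 ^ dd j ≤ D₀ := by
    intro j hj
    rcases Nat.lt_succ_iff_lt_or_eq.1 hj with hj | rfl
    · simpa [hdd, hll, hj] using S.dim j hj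
    · rw [hddk, hllk]
      exact ⟨hd, hℓ, hTS, hD⟩
  have hddn : ∀ j < k + 1, dd j + j ≤ n := by
    intro j hj
    induction j with
    | zero =>
      have h1 := (hdim 0 hj).2.2.1
      rw [S.p0] at h1
      have := B.pd_bot _ _ (Nat.mul_pos (hdim 0 hj).2.1 (pow_pos h.hm1 _)) h1
      omega
    | succ j ih =>
      have h1 := ih (by omega)
      have h2 := (hdim j (by omega)).2.2.1
      have h3 := (hdim (j + 1) hj).2.2.1
      have hne' : S.p (j + 1) ≠ pz z := by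
        rcases Nat.lt_succ_iff_lt_or_eq.1 hj with hj' | hj'
        · exact S.ne _ hj'
        · rw [hj']; exact hne
      have := B.pd_lt (S.p j) (S.p (j + 1)) (S.hp j (by omega)) (S.hp _ (by omega))
        (S.lt j (by omega)) hne' _ _ _ _ (Nat.mul_pos (hdim j (by omega)).2.1 (pow_pos h.hm1 _))
        (Nat.mul_pos (hdim _ hj).2.1 (pow_pos h.hm1 _)) h2 h3
      omega
  -- a section of `H_z` outside the last space
  have hx : ∃ x ∈ Hz C z m1 T, x ∉ S.P k := by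
    by_contra hcon
    push Not at hcon
    apply hne
    refine le_antisymm hpk.le (h.incl (pz z) (S.p k) hprime_pz hpk (Or.inl rfl) ?_)
    rw [← Hz_eq, ← S.tr_eq k le_rfl]
    exact hcon
  obtain ⟨P', γ', F', hγ', hP', hK3, hgood⟩ := B.good_step _ _ _ _ _ _ S.good hx
  have hdom' := B.good_dom _ _ _ _ _ _ hgood
  obtain ⟨q, hq⟩ := B.cen T h.hT F' hdom' (B.good_sat _ _ _ _ _ _ hgood)
  have hqp := B.cen_hprime _ _ _ hq
  have hP'k : P' (k + 1) = tr m1 q T := by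
    rw [← B.good_subGt _ _ _ _ _ _ hgood, B.cen_subGt _ _ _ hq]
  have hlt : S.P k < P' (k + 1) := by
    have := B.good_lt _ _ _ _ _ _ hgood k (by omega)
    rwa [hP' k le_rfl] at this
  have hpq : S.p k < q := by
    refine lt_of_le_of_ne (h.incl _ _ hpk hqp (Or.inr ⟨d, _, hD1, hD, hTS⟩) ?_) ?_
    · rw [← S.tr_eq k le_rfl, ← hP'k]; exact hlt.le
    · intro heq
      rw [← heq, ← S.tr_eq k le_rfl] at hP'k
      exact hlt.ne hP'k.symm
  set p : ℕ → Ideal C.R := fun j => if j ≤ k then S.p j else q with hp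
  have hpj : ∀ j ≤ k, p j = S.p j := fun j hj => by simp [hp, hj]
  have hpk1 : p (k + 1) = q := by simp [hp]
  -- (K3)
  have hK3' : K3Ineq (Hz C z m1 T) (B.a T) εs k (fun j => tr m1 (S.p j) T) γ' S.F := by
    intro G α d δ hα hδ hG haG hdG
    refine le_trans (le_of_eq ?_) (hK3 G α d δ hα hδ hG haG hdG)
    refine Finset.sum_congr rfl fun j hj => ?_
    have hj' := Finset.mem_range.1 hj
    rw [S.tr_eq j (by omega)]
  have hγ0 : ∀ j ≤ k, 0 ≤ γ' j := fun j hj => B.good_nonneg _ _ _ _ _ _ hgood j (by omega)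
  have hk3 := h.k3 S.F (S.p k) hdom hsat S.cen hne d _ hd hD1 hD hTS k S.p dd
    (fun j => ll j * m1 ^ dd j) (fun j hj => ⟨S.hp j hj, S.p_mono hj le_rfl, by
      rw [← S.tr_eq j hj]; exact B.good_step' _ _ _ _ _ _ S.good j hj,
      Nat.mul_pos (hdim j (by omega)).2.1 (pow_pos h.hm1 _), (hdim j (by omega)).2.2.2,
      (hdim j (by omega)).2.2.1⟩) γ' hK3' hγ0
  have hineq : ∑ j ∈ range (k + 1), γ' j * (m1 * T * hilb (VA C m1) (S.p j) T) / (dd j + 1) ≤
      (1 + ε) / (ℓ : ℝ) ^ ((1 : ℝ) / d) := by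
    have hdR : (1 : ℝ) ≤ d := by exact_mod_cast hd
    have h1 : ((ℓ * m1 ^ d : ℕ) : ℝ) ^ ((1 : ℝ) / d) = (ℓ : ℝ) ^ ((1 : ℝ) / d) * m1 := by
      push_cast
      rw [Real.mul_rpow (by positivity) (by positivity), ← Real.rpow_natCast (m1 : ℝ) d,
        ← Real.rpow_mul (by positivity)]
      rw [mul_one_div_cancel (by positivity), Real.rpow_one]
    have h2 : (0 : ℝ) < (ℓ : ℝ) ^ ((1 : ℝ) / d) := by
      have : (0 : ℝ) < ℓ := by exact_mod_cast hℓ
      positivity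
    rw [le_div_iff₀ h2]
    rw [h1] at hk3
    have h3 : d * ((∑ j ∈ range (k + 1), γ' j * (m1 * T * hilb (VA C m1) (S.p j) T) / (dd j + 1)) *
        (ℓ : ℝ) ^ ((1 : ℝ) / d)) ≤ d * (1 + ε) := by
      refine le_trans (le_of_eq ?_) hk3
      rw [Finset.sum_mul, Finset.mul_sum]
      refine Finset.sum_congr rfl fun j _ => ?_
      ring
    exact le_of_mul_le_mul_left h3 (by linarith)
  refine ⟨{ P := P', γ := γ', F := F', p := p, dd := dd, ll := ll, good := hgood,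
            cen := by rw [hpk1]; exact hq, hp := ?_, tr_eq := ?_, p0 := ?_, lt := ?_, ne := ?_,
            dim := ?_, ineq := ?_, ddn := hddn, dd0 := ?_, ord := ?_ }⟩
  · intro j hj
    rcases Nat.le_succ_iff.1 hj with hj | rfl
    · rw [hpj j hj]; exact S.hp j hj
    · rw [hpk1]; exact hqp
  · intro j hj
    rcases Nat.le_succ_iff.1 hj with hj | rfl
    · rw [hpj j hj, hP' j hj]; exact S.tr_eq j hj
    · rw [hpk1]; exact hP'k
  · rw [hpj 0 (by omega)]; exact S.p0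
  · intro j hj
    rcases Nat.lt_succ_iff_lt_or_eq.1 hj with hj | rfl
    · rw [hpj j (by omega), hpj (j + 1) (by omega)]; exact S.lt j hj
    · rw [hpj j le_rfl, hpk1]; exact hpq
  · intro j hj
    rw [hpj j (by omega)]
    rcases Nat.lt_succ_iff_lt_or_eq.1 hj with hj | rfl
    · exact S.ne j hj
    · exact hne
  · intro j hj
    rw [hpj j (by omega)]
    exact hdim j hj
  · intro i hi
    rcases Nat.lt_succ_iff_lt_or_eq.1 hi with hi | rfl
    · have h1 := S.ineq i hi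
      have h2 : ll i = S.ll i := by simp [hll, hi]
      have h3 : dd i = S.dd i := by simp [hdd, hi]
      rw [h2, h3]
      refine le_trans (le_of_eq ?_) h1
      refine Finset.sum_congr rfl fun j hj => ?_
      have hj' : j < k := by have := Finset.mem_range.1 hj; omega
      rw [hγ' j hj', hpj j hj'.le]
      simp [hdd, hj']
    · rw [hllk, hddk]
      refine le_trans (le_of_eq ?_) hineq
      refine Finset.sum_congr rfl fun j hj => ?_
      have hj' := Finset.mem_range.1 hj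
      rw [hpj j (by omega)]
  · intro _
    have h1 := (hdim 0 (by omega)).2.2.1
    rw [S.p0] at h1
    exact B.pd_bot _ _ (Nat.mul_pos (hdim 0 (by omega)).2.1 (pow_pos h.hm1 _)) h1
  · intro _
    rw [hpj 0 (by omega)]
    rcases Nat.eq_zero_or_pos k with hk | hk
    · subst hk
      have h1 := h.ord S.F (fun j => tr m1 (S.p j) T) γ' (by
        show tr m1 (S.p 0) T = ⊥
        rw [S.p0]
        ext x
        rw [mem_tr, Submodule.mem_bot]
        exact ⟨fun hx => Subtype.ext ((Submodule.mem_bot C.R).1 hx), fun hx => by rw [hx]; simp⟩)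
        hK3'
      have h2 : (hilb (VA C m1) (S.p 0) T : ℝ) ≤ finrank ℂ (VA C m1 T) := by
        rw [hilb_eq]
        have : (0 : ℝ) ≤ finrank ℂ (tr m1 (S.p 0) T) := Nat.cast_nonneg _
        linarith
      have h3 : (0 : ℝ) ≤ n + ε := by have := h.hε; positivity
      calc γ' 0 * (m1 * T * hilb (VA C m1) (S.p 0) T) * ordsum C z m1 T
          = (γ' 0 * ordsum C z m1 T) * (m1 * T * hilb (VA C m1) (S.p 0) T) := by ring
        _ ≤ (n + ε) * (m1 * T * hilb (VA C m1) (S.p 0) T) :=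
            mul_le_mul_of_nonneg_right h1 (by positivity)
        _ ≤ (n + ε) * (m1 * T * finrank ℂ (VA C m1 T)) := by gcongr
    · rw [hγ' 0 hk]
      exact S.ord hk

end Stg

/-- The initial stage. -/
theorem exists_init (B : Blocks C z m1) (h : Par B T ε εs D₀) : Nonempty (Stg B T ε εs D₀ 0) := by
  obtain ⟨γ, hg⟩ := B.good_init T h.hT εs h.hεs
  exact ⟨{ P := fun _ => ⊥, γ := γ, F := zeroF, p := fun _ => ⊥, dd := fun _ => 0,
           ll := fun _ => 0, good := hg, cen := B.cen_zero T h.hT,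
           hp := fun _ _ => hprime_bot,
           tr_eq := fun _ _ => by
             ext x
             rw [mem_tr, Submodule.mem_bot]
             exact ⟨fun hx => by rw [hx]; simp,
               fun hx => Subtype.ext ((Submodule.mem_bot C.R).1 hx)⟩,
           p0 := rfl, lt := fun _ hj => absurd hj (by omega),
           ne := fun _ hj => absurd hj (by omega), dim := fun _ hj => absurd hj (by omega),
           ineq := fun _ hj => absurd hj (by omega), ddn := fun _ hj => absurd hj (by omega),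
           dd0 := fun hj => absurd hj (by omega), ord := fun hj => absurd hj (by omega) }⟩

theorem exists_terminal (B : Blocks C z m1) (h : Par B T ε εs D₀) :
    ∃ r, ∃ S : Stg B T ε εs D₀ r, S.p r = pz z := by
  by_contra hcon
  push Not at hcon
  have key : ∀ k, Nonempty (Stg B T ε εs D₀ k) := by
    intro k
    induction k with
    | zero => exact exists_init B h
    | succ k ih =>
      obtain ⟨S⟩ := ih
      exact S.next h (hcon k S)
  obtain ⟨S⟩ := key (n + 1)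
  have h1 := S.ddn n (by omega)
  have h2 := (S.dim n (by omega)).1
  omega

/-- **The chain**: the blocks give the numerical output at every large level. -/
theorem tchain (B : Blocks C z m1) (hm1 : 1 ≤ m1) {ε : ℝ} (hε : 0 < ε) (hε1 : ε ≤ 1) :
    ∃ T₀ : ℕ, ∀ T ≥ T₀, TChain C z m1 T ε := by
  obtain ⟨D₀, T₀, hT₀⟩ := exists_par B hm1 hε hε1
  refine ⟨T₀, fun T hT => ?_⟩
  obtain ⟨εs, h⟩ := hT₀ T hT
  obtain ⟨r, S, hS⟩ := exists_terminal B h
  have hr : 0 < r := by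
    rcases Nat.eq_zero_or_pos r with rfl | hr
    · exact absurd (S.p0.symm.trans hS) B.bot_ne
    · exact hr
  refine ⟨r, S.c, S.dd, fun k => (S.ll k : ℝ) ^ ((1 : ℝ) / S.dd k), hr,
    fun j hj => S.c_nonneg hj, S.dd0 hr, fun j hj0 hj => ?_, fun j hj => (S.dim j hj).1,
    fun k hk => ?_, ?_, S.ineq, ?_, S.ord hr⟩
  · have := S.ddn j hj
    omega
  · exact Real.one_le_rpow (by exact_mod_cast (S.dim k hk).2.1) (by positivity)
  · intro ℓ hℓ
    have h1 := (S.dim 0 hr)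
    rw [S.dd0 hr, S.p0] at h1
    have hpos : 1 ≤ S.ll 0 * m1 ^ n := Nat.mul_pos h1.2.1 (pow_pos hm1 _)
    have hℓ1 : 1 ≤ ℓ := by
      by_contra hcon
      have h0 : ℓ = 0 := by omega
      rw [h0, zero_mul] at hℓ
      have h3 := (hℓ 0).2
      have h4 := (h1.2.2.1 0).1
      have h5 : 1 ≤ ∑ i ∈ range (S.ll 0 * m1 ^ n) with i ≤ 0, (0 - i + n).choose n := by
        refine le_trans (le_of_eq ?_) (Finset.single_le_sum (f := fun i => (0 - i + n).choose n)
          (fun i _ => Nat.zero_le _) (a := 0) ?_)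
        · simp
        · rw [Finset.mem_filter, Finset.mem_range]; omega
      simp at h3
      omega
    have h2 := TwoSided.unique hℓ h1.2.2.1 (Nat.mul_pos hℓ1 (pow_pos hm1 _)) hpos
    have h3 : ℓ = S.ll 0 := Nat.eq_of_mul_eq_mul_right (pow_pos hm1 _) h2.2
    simp only [S.dd0 hr, h3]
  · intro M hM
    have hT1 := h.hT
    refine B.fin T hT1 S.F _ (B.good_dom _ _ _ _ _ _ S.good) ?_ (S.kst h) M hM
    rw [← hS]; exact S.cen

end Vale.Agent.P271.Main
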