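import Mathlib

/-!
# P271, top numerical theorem

`ChainNum n ell Gen os mN ε` : what the chain of stages gives for one level `m` (numbers only):
`os` = `∑ ord` at the point on the level `m` piece, `mN = m * dim`.
`top_num` : from `ChainNum` at all large levels, for every `ε > 0`, and the equality case, follows
`Gen M` for all `M ≥ n + 1`.
-/

set_option linter.all false

open Finset

namespace Vale.Agent.P271.Main

/-- The numerical output of the chain of stages at one level. -/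
def ChainNum (n ell : ℕ) (Gen : ℕ → Prop) (os mN ε : ℝ) : Prop :=
  ∃ (r : ℕ) (c : ℕ → ℝ) (dd : ℕ → ℕ) (l : ℕ → ℝ), 1 ≤ r ∧
    (∀ j < r, 0 ≤ c j) ∧ dd 0 = n ∧ (∀ j, 0 < j → j < r → dd j < n) ∧ (∀ j < r, 1 ≤ dd j) ∧
    l 0 = (ell : ℝ) ^ ((1 : ℝ) / n) ∧ (∀ k < r, 1 ≤ l k) ∧
    (∀ k < r, ∑ j ∈ range (k + 1), c j / (dd j + 1) ≤ (1 + ε) / l k) ∧
    (∀ M : ℕ, ∑ j ∈ range r, c j + ε < M → Gen M) ∧
    c 0 * os ≤ (n + ε) * mN

/-- `∑ c_j ≤ n (1 + ε) + c_0 / (n + 1)` -/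
theorem sum_c_le' {n r : ℕ} (hr : 1 ≤ r) (c : ℕ → ℝ) (hc : ∀ j < r, 0 ≤ c j) (dd : ℕ → ℕ)
    (hd0 : dd 0 = n) (hdn : ∀ j, 0 < j → j < r → dd j < n)
    {ε : ℝ} (hε : 0 ≤ ε) (l : ℕ → ℝ) (hl : ∀ k < r, 1 ≤ l k)
    (hK3 : ∀ k < r, ∑ j ∈ range (k + 1), c j / (dd j + 1) ≤ (1 + ε) / l k) :
    ∑ j ∈ range r, c j ≤ n * (1 + ε) + c 0 / (n + 1) := by
  have h1 := hK3 (r - 1) (by omega)
  rw [Nat.sub_add_cancel hr] at h1
  have hl1 := hl (r - 1) (by omega)
  have h2 : (1 + ε) / l (r - 1) ≤ 1 + ε := div_le_self (by linarith) hl1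
  have h3 : ∀ j ∈ range r, c j ≤ n * (c j / (dd j + 1)) + if j = 0 then c 0 / (n + 1) else 0 := by
    intro j hj
    have hj' := Finset.mem_range.1 hj
    have hcj := hc j hj'
    split_ifs with h
    · subst h
      rw [hd0]
      have : (0 : ℝ) < (n : ℝ) + 1 := by positivity
      have h4 : (n : ℝ) * (c 0 / (n + 1)) + c 0 / (n + 1) = c 0 := by
        field_simp
      rw [h4]
    · have h4 := hdn j (by omega) hj'
      have h5 : ((dd j : ℝ) + 1) ≤ n := by exact_mod_cast h4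
      have h6 : (0 : ℝ) < (dd j : ℝ) + 1 := by positivity
      rw [add_zero]
      calc c j = (dd j + 1) * (c j / (dd j + 1)) := by field_simp
        _ ≤ n * (c j / (dd j + 1)) := mul_le_mul_of_nonneg_right h5 (by positivity)
  have h4 := Finset.sum_le_sum h3
  rw [Finset.sum_add_distrib, ← Finset.mul_sum, Finset.sum_ite_eq' (range r) 0
    (fun _ => c 0 / ((n : ℝ) + 1)), if_pos (Finset.mem_range.2 hr)] at h4
  have h5 : (n : ℝ) * ∑ j ∈ range r, c j / (dd j + 1) ≤ n * (1 + ε) :=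
    mul_le_mul_of_nonneg_left (h1.trans h2) (Nat.cast_nonneg n)
  linarith

theorem top_num {n ell : ℕ} (hn : 1 ≤ n) (hell : 1 ≤ ell) (Gen : ℕ → Prop) (os mN : ℕ → ℝ)
    (hmN : ∀ T, 0 ≤ mN T) (hos : ∀ T, 0 ≤ os T)
    (H : ∀ ε > 0, ∃ T₀ : ℕ, ∀ T ≥ T₀, ChainNum n ell Gen (os T) (mN T) ε)
    (hEq : ell = 1 → (∀ δ > 0, ∃ T₀ : ℕ, ∀ T ≥ T₀, os T ≤ ((n : ℝ) / (n + 1) + δ) * mN T) →
      Gen (n + 1)) :
    ∀ M : ℕ, n + 1 ≤ M → Gen M := by
  intro M hM
  have hn0 : (0 : ℝ) ≤ n := Nat.cast_nonneg n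
  have hn1 : (1 : ℝ) ≤ n := by exact_mod_cast hn
  have hnn : (0 : ℝ) < (n : ℝ) + 1 := by positivity
  rcases Nat.lt_or_ge (n + 1) M with h | h
  · -- `M ≥ n + 2`
    have hε : (0 : ℝ) < 1 / (2 * (n + 2)) := by positivity
    obtain ⟨T₀, hT₀⟩ := H _ hε
    obtain ⟨r, c, dd, l, hr, hc, hd0, hdn, hd1, hl0, hl, hK3, hgen, -⟩ := hT₀ T₀ le_rfl
    apply hgen
    have h1 := sum_c_le' hr c hc dd hd0 hdn hε.le l hl hK3
    have h2 := hK3 0 (by omega)
    simp only [zero_add, Finset.range_one, Finset.sum_singleton, hd0] at h2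
    have h3 : (1 + 1 / (2 * ((n : ℝ) + 2))) / l 0 ≤ 1 + 1 / (2 * ((n : ℝ) + 2)) :=
      div_le_self (by linarith) (hl 0 (by omega))
    have h4 : ((n : ℝ) + 2) * (1 / (2 * ((n : ℝ) + 2))) = 1 / 2 := by field_simp
    have h5 : ((n : ℝ) + 2) ≤ M := by exact_mod_cast h
    nlinarith
  · have hMn : M = n + 1 := by omega
    subst hMn
    rcases Nat.lt_or_ge 1 ell with h1 | h1
    · -- `ell ≥ 2`
      have hl2 : 1 < (ell : ℝ) ^ ((1 : ℝ) / n) :=
        Real.one_lt_rpow (by exact_mod_cast h1) (by positivity)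
      set L : ℝ := (ell : ℝ) ^ ((1 : ℝ) / n) with hL
      have hL1 : 1 / L < 1 := by
        rw [div_lt_one (by linarith)]; exact hl2
      set g : ℝ := 1 - 1 / L with hg
      have hg0 : 0 < g := by linarith
      have hε : (0 : ℝ) < g / (2 * (n + 2)) := by positivity
      obtain ⟨T₀, hT₀⟩ := H _ hε
      obtain ⟨r, c, dd, l, hr, hc, hd0, hdn, hd1, hl0, hl, hK3, hgen, -⟩ := hT₀ T₀ le_rfl
      apply hgen
      set ε : ℝ := g / (2 * (n + 2)) with hεd
      have h2 := sum_c_le' hr c hc dd hd0 hdn hε.le l hl hK3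
      have h3 := hK3 0 (by omega)
      simp only [zero_add, Finset.range_one, Finset.sum_singleton, hd0] at h3
      rw [hl0] at h3
      have h4 : (1 + ε) / L = (1 + ε) * (1 / L) := by ring
      have h5 : ((n : ℝ) + 2) * ε = g / 2 := by
        rw [hεd]; field_simp
      have h6 : (1 + ε) * (1 / L) ≤ 1 / L + ε := by
        have : ε * (1 / L) ≤ ε * 1 := mul_le_mul_of_nonneg_left hL1.le hε.le
        linarith
      push_cast
      nlinarith
    · -- `ell = 1`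
      have hell1 : ell = 1 := by omega
      by_contra hnot
      apply hnot
      apply hEq hell1
      intro δ hδ
      -- choose `ε`
      obtain ⟨ε, hε, hε1, hε2⟩ : ∃ ε : ℝ, 0 < ε ∧ ((n : ℝ) + 1) * ε < 1 ∧
          ((n : ℝ) + ε) / ((n + 1) * (1 - (n + 1) * ε)) ≤ (n : ℝ) / (n + 1) + δ := by
        have hlim : Filter.Tendsto (fun ε : ℝ => ((n : ℝ) + ε) / ((n + 1) * (1 - (n + 1) * ε)))
            (nhdsWithin 0 (Set.Ioi 0)) (nhds (((n : ℝ) + 0) / ((n + 1) * (1 - (n + 1) * 0)))) := by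
          apply Filter.Tendsto.mono_left _ nhdsWithin_le_nhds
          apply ContinuousAt.tendsto
          apply ContinuousAt.div
          · fun_prop
          · fun_prop
          · simp only [mul_zero, sub_zero, mul_one]
            positivity
        have hlt : ((n : ℝ) + 0) / ((n + 1) * (1 - (n + 1) * 0)) < (n : ℝ) / (n + 1) + δ := by
          simp only [mul_zero, sub_zero, mul_one, add_zero]
          linarith
        have h2 := (tendsto_order.1 hlim).2 _ hlt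
        have h3 : ∀ᶠ ε : ℝ in nhdsWithin 0 (Set.Ioi 0), ε < 1 / ((n : ℝ) + 1) :=
          (eventually_lt_nhds (by positivity)).filter_mono nhdsWithin_le_nhds
        obtain ⟨ε, ⟨h4, h5⟩, h6⟩ := ((h2.and h3).and self_mem_nhdsWithin).exists
        refine ⟨ε, h6, ?_, h4.le⟩
        rw [lt_div_iff₀ hnn] at h5
        linarith
      obtain ⟨T₀, hT₀⟩ := H ε hε
      refine ⟨T₀, fun T hT => ?_⟩
      obtain ⟨r, c, dd, l, hr, hc, hd0, hdn, hd1, hl0, hl, hK3, hgen, hord⟩ := hT₀ T hT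
      have h2 := sum_c_le' hr c hc dd hd0 hdn hε.le l hl hK3
      have h3 : ¬ (∑ j ∈ range r, c j + ε < ((n + 1 : ℕ) : ℝ)) := fun h => hnot (hgen _ h)
      push_cast at h3
      have h4 : 1 - ((n : ℝ) + 1) * ε ≤ c 0 / (n + 1) := by
        nlinarith
      rw [le_div_iff₀ hnn] at h4
      have h5 : 0 < ((n : ℝ) + 1) * (1 - (n + 1) * ε) := mul_pos hnn (by linarith)
      have h6 : ((n : ℝ) + 1) * (1 - (n + 1) * ε) * os T ≤ (n + ε) * mN T := by
        refine le_trans ?_ hord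
        apply mul_le_mul_of_nonneg_right _ (hos T)
        linarith
      have h7 : os T ≤ ((n : ℝ) + ε) / ((n + 1) * (1 - (n + 1) * ε)) * mN T := by
        rw [div_mul_eq_mul_div, le_div_iff₀ h5]
        linarith
      exact h7.trans (mul_le_mul_of_nonneg_right hε2 (hmN T))

end Vale.Agent.P271.Main
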